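import Vale.Agent.Lib.P012h29.Descent
import Vale.Agent.Lib.P012.Egyptian
import Mathlib.Tactic

/-!
From the descent and the greedy phase to an arbitrary fraction.
-/

namespace Vale.Agent.P012h29

open Finset

/-- The assembly. -/
theorem assemble {a b ι J E O μ s cnt : ℕ} (ha : 0 < a) (hab : a < b) (hb : b ≤ 2 ^ (2 ^ ι))
    (hιJ : ι ≤ J) (hO : 0 < O) (hC : Claim E O μ s cnt) (h1 : 2 ^ E * O ≤ 2 ^ (2 ^ J + μ))
    (h2 : E + 1 + 3 * 2 ^ (J + 1) ≤ μ) :
    ∃ S : Finset ℕ, (∀ n ∈ S, 2 ≤ n) ∧ (∑ n ∈ S, (1 : ℚ) / n) = (a : ℚ) / b ∧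
      S.card ≤ J + 2 + 2 * cnt := by
  classical
  have hbpos : 0 < b := by omega
  have h2ι : 2 ^ ι ≤ 2 ^ J := Nat.pow_le_pow_right (by norm_num) hιJ
  have e2J : 2 ^ (J + 1) = 2 * 2 ^ J := by rw [pow_succ]; ring
  set c := 2 ^ (2 ^ (J + 1) - 2 ^ ι) with hc
  have hcpos : 0 < c := by positivity
  have hb' : b * c ≤ 2 ^ (2 ^ (J + 1)) := by
    calc b * c ≤ 2 ^ (2 ^ ι) * c := Nat.mul_le_mul_right _ hb
      _ = 2 ^ (2 ^ (J + 1)) := by
        rw [hc, ← pow_add]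
        congr 1
        omega
  have hb'' : 2 ^ (2 ^ J) ≤ b * c := by
    calc 2 ^ (2 ^ J) ≤ c := Nat.pow_le_pow_right (by norm_num) (by omega)
      _ ≤ b * c := Nat.le_mul_of_pos_left _ hbpos
  obtain ⟨G, u', v', hG, hGeq, hGcard, hv'pos, hv'le, hv'b⟩ :=
    Vale.Agent.P012.greedy_full (a * c) (b * c) (J + 1) (Nat.mul_pos ha hcpos)
      (Nat.mul_lt_mul_of_pos_right hab hcpos) hb'
  have hfrac : ((a * c : ℕ) : ℚ) / ((b * c : ℕ) : ℚ) = (a : ℚ) / b := by
    have hc0 : (c : ℚ) ≠ 0 := by positivity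
    have hb0 : (b : ℚ) ≠ 0 := by positivity
    push_cast
    field_simp
  rw [hfrac] at hGeq
  rcases Nat.eq_zero_or_pos u' with h0 | hu'pos
  · refine ⟨G, fun n hn => (hG n hn).1, ?_, by omega⟩
    rw [hGeq, h0]
    simp
  -- the split
  set N := 2 ^ E * O with hN
  have hNpos : 0 < N := by positivity
  have hdiv := Nat.div_add_mod (u' * N) v'
  have hrlt := Nat.mod_lt (u' * N) hv'pos
  set m := u' * N / v' with hm
  set r := u' * N % v' with hr
  have hu'2 : u' * 2 ^ (2 ^ J) ≤ v' := by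
    calc u' * 2 ^ (2 ^ J) ≤ u' * (b * c) := Nat.mul_le_mul_left _ hb''
      _ = b * c * u' := by ring
      _ ≤ v' := hv'b
  have hmle : m ≤ 2 ^ μ := by
    have h3 : u' * (2 ^ (2 ^ J) * m) ≤ u' * N := by
      calc u' * (2 ^ (2 ^ J) * m) = (u' * 2 ^ (2 ^ J)) * m := by ring
        _ ≤ v' * m := Nat.mul_le_mul_right _ hu'2
        _ ≤ u' * N := by omega
    have h4 : 2 ^ (2 ^ J) * m ≤ N := Nat.le_of_mul_le_mul_left h3 hu'pos
    have h5 : 2 ^ (2 ^ J) * m ≤ 2 ^ (2 ^ J) * 2 ^ μ := by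
      rw [← pow_add]
      exact h4.trans h1
    exact Nat.le_of_mul_le_mul_left h5 (by positivity)
  have hrle : 2 ^ (E + 1) * r ≤ 2 ^ μ := by
    have h3 : v' ≤ 2 ^ (3 * 2 ^ (J + 1)) := by
      calc v' ≤ (b * c) ^ 3 := hv'le
        _ ≤ (2 ^ (2 ^ (J + 1))) ^ 3 := Nat.pow_le_pow_left hb' 3
        _ = 2 ^ (3 * 2 ^ (J + 1)) := by rw [← pow_mul]; congr 1; ring
    calc 2 ^ (E + 1) * r ≤ 2 ^ (E + 1) * 2 ^ (3 * 2 ^ (J + 1)) :=
          Nat.mul_le_mul_left _ (by omega)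
      _ = 2 ^ (E + 1 + 3 * 2 ^ (J + 1)) := by rw [pow_add 2 (E + 1)]
      _ ≤ 2 ^ μ := Nat.pow_le_pow_right (by norm_num) h2
  obtain ⟨F₁, hF₁card, hF₁, hF₁sum⟩ := hC m hmle
  obtain ⟨F₂, hF₂card, hF₂, hF₂sum⟩ := hC (2 ^ (E + 1) * r) hrle
  set K := 2 ^ (E + 1) * v' with hK
  have hKpos : 0 < K := by positivity
  set F₃ := F₂.image (fun d => K * d) with hF₃
  have hF₃sum : ∑ d ∈ F₃, (1 : ℚ) / d = (r : ℚ) / ((N : ℚ) * v') := by
    rw [hF₃, sum_scale F₂ K hKpos, hF₂sum, ← hN, hK]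
    have hN0 : (N : ℚ) ≠ 0 := by positivity
    have hv0 : (v' : ℚ) ≠ 0 := by positivity
    have h20 : ((2 : ℚ) ^ (E + 1)) ≠ 0 := by positivity
    push_cast
    field_simp
  have hdisj : Disjoint F₁ F₃ := by
    rw [disjoint_left]
    intro d h3 h4
    obtain ⟨x, _, rfl⟩ := mem_image.mp h4
    apply (hF₁ _ h3).2.1
    rw [hK]
    exact Dvd.dvd.mul_right (dvd_mul_right _ _) _
  set Rest := F₁ ∪ F₃ with hRest
  have hRestsum : ∑ d ∈ Rest, (1 : ℚ) / d = (u' : ℚ) / v' := by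
    rw [hRest, sum_union hdisj, hF₁sum, hF₃sum, ← hN]
    have hN0 : (N : ℚ) ≠ 0 := by positivity
    have hv0 : (v' : ℚ) ≠ 0 := by positivity
    have hdq : (v' : ℚ) * m + r = u' * N := by exact_mod_cast hdiv
    field_simp
    linarith
  have hRestpos : ∀ d ∈ Rest, 0 < d := by
    intro d hd
    rcases mem_union.mp hd with hd | hd
    · exact (hF₁ d hd).1
    · obtain ⟨x, hx, rfl⟩ := mem_image.mp hd
      exact Nat.mul_pos hKpos (hF₂ x hx).1
  have hRestle : ∀ d ∈ Rest, v' ≤ u' * d := by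
    intro d hd
    have hdpos := hRestpos d hd
    have hle : (1 : ℚ) / d ≤ (u' : ℚ) / v' := by
      rw [← hRestsum]
      exact single_le_sum (f := fun n : ℕ => (1 : ℚ) / n) (fun _ _ => by positivity) hd
    have hdq : (0 : ℚ) < d := by exact_mod_cast hdpos
    have hvq : (0 : ℚ) < v' := by exact_mod_cast hv'pos
    rw [div_le_div_iff₀ hdq hvq] at hle
    have : 1 * v' ≤ u' * d := by exact_mod_cast hle
    simpa using this
  have hdisj2 : Disjoint G Rest := by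
    rw [disjoint_left]
    intro n hnG hnR
    have h3 := (hG n hnG).2
    have h4 := hRestle n hnR
    rw [mul_comm] at h4
    omega
  refine ⟨G ∪ Rest, ?_, ?_, ?_⟩
  · intro n hn
    rcases mem_union.mp hn with hn | hn
    · exact (hG n hn).1
    · have h3 := hRestle n hn
      have h4 : b * c * u' ≤ u' * n := hv'b.trans h3
      have h5 : u' * (b * c) ≤ u' * n := by rw [mul_comm]; exact h4
      have h6 : b * c ≤ n := Nat.le_of_mul_le_mul_left h5 hu'pos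
      have h7 : 2 ≤ b * c := by
        calc 2 ≤ b := by omega
          _ ≤ b * c := Nat.le_mul_of_pos_right _ hcpos
      omega
  · rw [sum_union hdisj2, hRestsum, hGeq]
  · have a1 := card_union_le G Rest
    have a2 : Rest.card ≤ F₁.card + F₃.card := card_union_le F₁ F₃
    have a3 : F₃.card ≤ F₂.card := card_image_le
    omega

end Vale.Agent.P012h29
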