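import Vale.Agent.Lib.P012h29.Pool
import Vale.Agent.Lib.P012.Params
import Mathlib.Tactic

/-!
Iterating the stages; construction of the pools.
-/

namespace Vale.Agent.P012h29

open Finset

/-- The state of the descent after `k` stages. -/
def CoreAt (w₁ w₂ E μb μ k : ℕ) : Prop :=
  ∃ O, Odd O ∧ 3 ∣ O ∧ w₁ * w₂ ∣ O ∧ O * 2 ^ μb ≤ 3 * (w₁ * w₂) * 2 ^ (μ + k) ∧
    Claim E O μ (2 + 2 * k) (μb + 3 + 18 * k)

theorem core_base {w₁ w₂ E μb : ℕ} (hw₁ : Odd w₁) (hw₂ : Odd w₂) (h3₁ : ¬ 3 ∣ w₁)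
    (h3₂ : ¬ 3 ∣ w₂) (hE : μb + 1 ≤ E) : CoreAt w₁ w₂ E μb μb 0 := by
  have hW : Odd (w₁ * w₂) := hw₁.mul hw₂
  have h3W : ¬ 3 ∣ w₁ * w₂ := by
    intro h
    rcases (Nat.Prime.dvd_mul Nat.prime_three).mp h with h | h
    · exact h3₁ h
    · exact h3₂ h
  refine ⟨3 * (w₁ * w₂), (by decide : Odd 3).mul hW, dvd_mul_right _ _, dvd_mul_left _ _, ?_, ?_⟩
  · simp
  · exact base_claim hW h3W hE

theorem core_step {w₁ w₂ E μb μ' k n q : ℕ} (hw₁ : Odd w₁) (hw₂ : Odd w₂) (h3₁ : ¬ 3 ∣ w₁)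
    (h3₂ : ¬ 3 ∣ w₂) (hcop : Nat.Coprime w₁ w₂) (hL : Level w₁ w₂ n q) (hq : q ≤ 2 ^ (n + 1))
    (hn : 2 ≤ n) (hμ' : 2 * n + (2 + 2 * k) + 3 ≤ μ') (hE : (2 + 2 * k) + 1 ≤ E)
    (hC : CoreAt w₁ w₂ E μb μ' k) : CoreAt w₁ w₂ E μb (μ' + n) (k + 1) := by
  obtain ⟨O, hO, h3O, hwO, hsize, hclaim⟩ := hC
  have hstep := stage_step hw₁ hw₂ h3₁ h3₂ hcop hO h3O hwO hL hn (le_refl (μ' + n)) hμ' hE hclaim
  have hqodd : Odd q := by
    obtain ⟨hq', hq2, _⟩ := hL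
    refine hq'.odd_of_ne_two ?_
    have : 4 ≤ 2 ^ n := by
      calc 4 = 2 ^ 2 := by norm_num
        _ ≤ 2 ^ n := Nat.pow_le_pow_right (by norm_num) hn
    omega
  refine ⟨q * O, hqodd.mul hO, Dvd.dvd.mul_left h3O _, Dvd.dvd.mul_left hwO _, ?_, ?_⟩
  · calc q * O * 2 ^ μb = q * (O * 2 ^ μb) := by ring
      _ ≤ 2 ^ (n + 1) * (3 * (w₁ * w₂) * 2 ^ (μ' + k)) := Nat.mul_le_mul hq hsize
      _ = 3 * (w₁ * w₂) * 2 ^ (μ' + n + (k + 1)) := by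
          have : μ' + n + (k + 1) = (n + 1) + (μ' + k) := by ring
          rw [this, pow_add 2 (n + 1)]; ring
  · have e1 : 2 + 2 * (k + 1) = 2 + 2 * k + 2 := by ring
    have e2 : μb + 3 + 18 * (k + 1) = μb + 3 + 18 * k + 18 := by ring
    rw [e1, e2]
    exact hstep

/-- The geometric phase. -/
theorem core_geo {w₁ w₂ E σ imin ι L : ℕ} (hw₁ : Odd w₁) (hw₂ : Odd w₂) (h3₁ : ¬ 3 ∣ w₁)
    (h3₂ : ¬ 3 ∣ w₂) (hcop : Nat.Coprime w₁ w₂)
    (hlev : ∀ i, imin ≤ i → i < ι → ∃ q, Level w₁ w₂ (2 ^ i) q ∧ q ≤ 2 ^ (2 ^ i + 1))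
    (himin : 1 ≤ imin) (hσ : 2 * L + 5 ≤ σ) (hE : 2 * L + 3 ≤ E)
    (hbase : CoreAt w₁ w₂ E (σ + 2 ^ (imin + 1)) (σ + 2 ^ (imin + 1)) 0) :
    ∀ d, imin + d ≤ ι → 2 * d ≤ L →
      CoreAt w₁ w₂ E (σ + 2 ^ (imin + 1)) (σ + 2 ^ (imin + d + 1)) (2 * d) := by
  intro d
  induction d with
  | zero =>
    intro _ _
    simpa using hbase
  | succ d ih =>
    intro h1 h2
    have hprev := ih (by omega) (by omega)
    set i := imin + d with hi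
    obtain ⟨q, hL, hq⟩ := hlev i (by omega) (by omega)
    have hn : 2 ≤ 2 ^ i := by
      calc 2 = 2 ^ 1 := by norm_num
        _ ≤ 2 ^ i := Nat.pow_le_pow_right (by norm_num) (by omega)
    have e : 2 ^ (i + 1) = 2 * 2 ^ i := by rw [pow_succ]; ring
    have s1 := core_step hw₁ hw₂ h3₁ h3₂ hcop hL hq hn (k := 2 * d) (μ' := σ + 2 ^ (i + 1))
      (by omega) (by omega) hprev
    have s2 := core_step hw₁ hw₂ h3₁ h3₂ hcop hL hq hn (k := 2 * d + 1)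
      (μ' := σ + 2 ^ (i + 1) + 2 ^ i) (by omega) (by omega) s1
    have e2 : σ + 2 ^ (i + 1) + 2 ^ i + 2 ^ i = σ + 2 ^ (imin + (d + 1) + 1) := by
      have e3 : imin + (d + 1) + 1 = i + 1 + 1 := by omega
      rw [e3, pow_succ 2 (i + 1), e]
      omega
    have e4 : 2 * d + 1 + 1 = 2 * (d + 1) := by ring
    rw [e2, e4] at s2
    exact s2

/-- The linear phase. -/
theorem core_lin {w₁ w₂ E σ μb i₁ k₀ L q : ℕ} (hw₁ : Odd w₁) (hw₂ : Odd w₂) (h3₁ : ¬ 3 ∣ w₁)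
    (h3₂ : ¬ 3 ∣ w₂) (hcop : Nat.Coprime w₁ w₂) (hL : Level w₁ w₂ (2 ^ i₁) q)
    (hq : q ≤ 2 ^ (2 ^ i₁ + 1)) (hi₁ : 1 ≤ i₁) (hσ : 2 * L + 5 ≤ σ) (hE : 2 * L + 3 ≤ E)
    (hbase : CoreAt w₁ w₂ E μb (σ + 2 ^ (i₁ + 1)) k₀) :
    ∀ j, k₀ + j ≤ L → CoreAt w₁ w₂ E μb (σ + 2 ^ (i₁ + 1) + j * 2 ^ i₁) (k₀ + j) := by
  intro j
  induction j with
  | zero =>
    intro _
    simpa using hbase
  | succ j ih =>
    intro h1
    have hprev := ih (by omega)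
    have hn : 2 ≤ 2 ^ i₁ := by
      calc 2 = 2 ^ 1 := by norm_num
        _ ≤ 2 ^ i₁ := Nat.pow_le_pow_right (by norm_num) (by omega)
    have e : 2 ^ (i₁ + 1) = 2 * 2 ^ i₁ := by rw [pow_succ]; ring
    have hnon : 0 ≤ j * 2 ^ i₁ := Nat.zero_le _
    have s1 := core_step hw₁ hw₂ h3₁ h3₂ hcop hL hq hn (k := k₀ + j)
      (μ' := σ + 2 ^ (i₁ + 1) + j * 2 ^ i₁) (by omega) (by omega) hprev
    have e2 : σ + 2 ^ (i₁ + 1) + j * 2 ^ i₁ + 2 ^ i₁ = σ + 2 ^ (i₁ + 1) + (j + 1) * 2 ^ i₁ := by ring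
    have e4 : k₀ + j + 1 = k₀ + (j + 1) := by ring
    rw [e2, e4] at s1
    exact s1

/-- Disjoint subfamilies. -/
theorem exists_family (P : Finset ℕ) (ω : ℕ) : ∀ k, k * ω ≤ P.card →
    ∃ R : ℕ → Finset ℕ, (∀ i < k, R i ⊆ P ∧ (R i).card = ω) ∧
      (∀ i < k, ∀ j < k, i ≠ j → Disjoint (R i) (R j)) := by
  classical
  intro k
  induction k with
  | zero =>
    intro _
    exact ⟨fun _ => ∅, by simp, by simp⟩
  | succ k ih =>
    intro h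
    have h' : k * ω ≤ P.card := by
      rw [add_mul] at h
      omega
    obtain ⟨R, hR, hd⟩ := ih h'
    set U := (range k).biUnion R with hU
    have hUcard : U.card ≤ k * ω := by
      calc U.card ≤ ∑ i ∈ range k, (R i).card := card_biUnion_le
        _ = ∑ i ∈ range k, ω := sum_congr rfl (fun i hi => (hR i (mem_range.mp hi)).2)
        _ = k * ω := by simp
    have hsize : ω ≤ (P \ U).card := by
      have h1 := le_card_sdiff U P
      rw [add_mul] at h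
      omega
    obtain ⟨S, hS, hScard⟩ := exists_subset_card_eq hsize
    refine ⟨fun i => if i = k then S else R i, ?_, ?_⟩
    · intro i hi
      by_cases hik : i = k
      · simp only [hik, if_true]
        exact ⟨hS.trans sdiff_subset, hScard⟩
      · simp only [hik, if_false]
        exact hR i (by omega)
    · have hSd : ∀ i < k, Disjoint S (R i) := by
        intro i hi
        rw [disjoint_left]
        intro x hx hxi
        have h2 := hS hx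
        have h3 : x ∈ U := mem_biUnion.mpr ⟨i, mem_range.mpr hi, hxi⟩
        exact (mem_sdiff.mp h2).2 h3
      intro i hi j hj hij
      by_cases hik : i = k
      · have hjk : j ≠ k := by omega
        simp only [hik, if_true, hjk, if_false]
        exact hSd j (by omega)
      · by_cases hjk : j = k
        · simp only [hik, if_false, hjk, if_true]
          exact (hSd i (by omega)).symm
        · simp only [hik, if_false, hjk]
          exact hd i (by omega) j (by omega) hij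

/-- The two pools. -/
theorem exists_pools (ι : ℕ) : ∃ w₁ w₂ : ℕ, Odd w₁ ∧ Odd w₂ ∧ ¬ 3 ∣ w₁ ∧ ¬ 3 ∣ w₂ ∧
    Nat.Coprime w₁ w₂ ∧ w₁ ≤ 2 ^ (10 * (ι + 4) * 2 ^ ι) ∧ w₂ ≤ 2 ^ (10 * (ι + 4) * 2 ^ ι) ∧
    PoolFamily w₁ (10 * (ι + 4) * 2 ^ ι) (2 ^ ι) ∧ PoolFamily w₂ (10 * (ι + 4) * 2 ^ ι) (2 ^ ι) := by
  classical
  obtain ⟨pool, hcard, hpool⟩ := Vale.Agent.P012.exists_pool (ι + 4) (by omega)
  set ω := 2 ^ ι with hω
  have hωpos : 1 ≤ ω := Nat.one_le_two_pow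
  have e16 : 2 ^ (ι + 4) = 16 * ω := by rw [hω, pow_add]; ring
  set P := pool.erase 3 with hP
  have hPcard : 10 * ω ≤ P.card := by
    have h9 : pool.card - 1 ≤ P.card := pred_card_le_card_erase
    omega
  obtain ⟨R, hR, hd⟩ := exists_family P ω 10 hPcard
  have hPp : ∀ p ∈ P, p.Prime ∧ p ≠ 2 ∧ p ≠ 3 ∧ p ≤ 2 ^ (2 * (ι + 4)) := by
    intro p hp
    obtain ⟨h1, h2⟩ := mem_erase.mp hp
    obtain ⟨a, b, c⟩ := hpool p h2
    exact ⟨a, b, h1, c⟩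
  have hD : ∀ i j, i < 10 → j < 10 → i ≠ j → Disjoint (R i) (R j) :=
    fun i j hi hj hij => hd i hi j hj hij
  set Q₁ := R 0 ∪ R 1 ∪ R 2 ∪ R 3 ∪ R 4 with hQ₁
  set Q₂ := R 5 ∪ R 6 ∪ R 7 ∪ R 8 ∪ R 9 with hQ₂
  have hQ₁P : Q₁ ⊆ P := by
    rw [hQ₁]
    exact union_subset (union_subset (union_subset (union_subset (hR 0 (by norm_num)).1
      (hR 1 (by norm_num)).1) (hR 2 (by norm_num)).1) (hR 3 (by norm_num)).1) (hR 4 (by norm_num)).1
  have hQ₂P : Q₂ ⊆ P := by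
    rw [hQ₂]
    exact union_subset (union_subset (union_subset (union_subset (hR 5 (by norm_num)).1
      (hR 6 (by norm_num)).1) (hR 7 (by norm_num)).1) (hR 8 (by norm_num)).1) (hR 9 (by norm_num)).1
  have hQ₁card : Q₁.card ≤ 5 * ω := by
    have c0 := (hR 0 (by norm_num)).2
    have c1 := (hR 1 (by norm_num)).2
    have c2 := (hR 2 (by norm_num)).2
    have c3 := (hR 3 (by norm_num)).2
    have c4 := (hR 4 (by norm_num)).2
    have a1 := card_union_le (R 0 ∪ R 1 ∪ R 2 ∪ R 3) (R 4)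
    have a2 := card_union_le (R 0 ∪ R 1 ∪ R 2) (R 3)
    have a3 := card_union_le (R 0 ∪ R 1) (R 2)
    have a4 := card_union_le (R 0) (R 1)
    rw [hQ₁]
    omega
  have hQ₂card : Q₂.card ≤ 5 * ω := by
    have c0 := (hR 5 (by norm_num)).2
    have c1 := (hR 6 (by norm_num)).2
    have c2 := (hR 7 (by norm_num)).2
    have c3 := (hR 8 (by norm_num)).2
    have c4 := (hR 9 (by norm_num)).2
    have a1 := card_union_le (R 5 ∪ R 6 ∪ R 7 ∪ R 8) (R 9)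
    have a2 := card_union_le (R 5 ∪ R 6 ∪ R 7) (R 8)
    have a3 := card_union_le (R 5 ∪ R 6) (R 7)
    have a4 := card_union_le (R 5) (R 6)
    rw [hQ₂]
    omega
  have hsize : ∀ {Q : Finset ℕ}, Q ⊆ P → Q.card ≤ 5 * ω →
      ∏ p ∈ Q, p ≤ 2 ^ (10 * (ι + 4) * ω) := by
    intro Q hs hc
    calc ∏ p ∈ Q, p ≤ (2 ^ (2 * (ι + 4))) ^ Q.card :=
          prod_le_pow_card _ _ _ (fun p hp => (hPp p (hs hp)).2.2.2)
      _ ≤ (2 ^ (2 * (ι + 4))) ^ (5 * ω) := Nat.pow_le_pow_right (by positivity) hc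
      _ = 2 ^ (10 * (ι + 4) * ω) := by
          rw [← pow_mul]; congr 1; ring
  have hodd : ∀ {Q : Finset ℕ}, Q ⊆ P → Odd (∏ p ∈ Q, p) := by
    intro Q hs
    rw [← Nat.not_even_iff_odd, even_iff_two_dvd, Prime.dvd_finsetProd_iff Nat.prime_two.prime]
    rintro ⟨p, hp, h2⟩
    exact (hPp p (hs hp)).2.1 ((Nat.prime_dvd_prime_iff_eq Nat.prime_two (hPp p (hs hp)).1).mp h2).symm
  have h3 : ∀ {Q : Finset ℕ}, Q ⊆ P → ¬ 3 ∣ ∏ p ∈ Q, p := by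
    intro Q hs
    rw [Prime.dvd_finsetProd_iff Nat.prime_three.prime]
    rintro ⟨p, hp, h2⟩
    exact (hPp p (hs hp)).2.2.1 ((Nat.prime_dvd_prime_iff_eq Nat.prime_three (hPp p (hs hp)).1).mp h2).symm
  have hdisjQ : Disjoint Q₁ Q₂ := by
    simp only [hQ₁, hQ₂, disjoint_union_left, disjoint_union_right]
    refine ⟨⟨⟨⟨⟨⟨⟨⟨?_, ?_⟩, ?_⟩, ?_⟩, ?_⟩, ⟨⟨⟨⟨?_, ?_⟩, ?_⟩, ?_⟩, ?_⟩⟩, ⟨⟨⟨⟨?_, ?_⟩, ?_⟩, ?_⟩, ?_⟩⟩,
      ⟨⟨⟨⟨?_, ?_⟩, ?_⟩, ?_⟩, ?_⟩⟩, ⟨⟨⟨⟨?_, ?_⟩, ?_⟩, ?_⟩, ?_⟩⟩ <;>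
    exact hD _ _ (by norm_num) (by norm_num) (by norm_num)
  have hpr : ∀ {Q : Finset ℕ}, Q ⊆ P → ∀ p ∈ Q, p.Prime := fun hs p hp => (hPp p (hs hp)).1
  have hTpos : 1 ≤ 10 * (ι + 4) * ω := by
    have : 1 ≤ (ι + 4) * ω := Nat.mul_pos (by omega) hωpos
    nlinarith
  have hne : ∀ i, i < 10 → (R i).Nonempty := by
    intro i hi
    rw [← card_pos, (hR i hi).2]
    omega
  refine ⟨∏ p ∈ Q₁, p, ∏ p ∈ Q₂, p, hodd hQ₁P, hodd hQ₂P, h3 hQ₁P, h3 hQ₂P,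
    coprime_prod (hpr hQ₁P) (hpr hQ₂P) hdisjQ, hsize hQ₁P hQ₁card, hsize hQ₂P hQ₂card, ?_, ?_⟩
  · apply poolFamily_of (R₁ := R 0) (R₂ := R 1) (R₃ := R 2) (R₄ := R 3) (R₅ := R 4) (hpr hQ₁P)
    · rw [hQ₁]; intro x hx; simp [hx]
    · rw [hQ₁]; intro x hx; simp [hx]
    · rw [hQ₁]; intro x hx; simp [hx]
    · rw [hQ₁]; intro x hx; simp [hx]
    · rw [hQ₁]; intro x hx; simp [hx]
    · exact hD _ _ (by norm_num) (by norm_num) (by norm_num)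
    · exact hD _ _ (by norm_num) (by norm_num) (by norm_num)
    · simp only [disjoint_union_left, disjoint_union_right]
      refine ⟨⟨?_, ?_⟩, ⟨?_, ?_⟩⟩ <;> exact hD _ _ (by norm_num) (by norm_num) (by norm_num)
    · simp only [disjoint_union_left]
      refine ⟨?_, ?_⟩ <;> exact hD _ _ (by norm_num) (by norm_num) (by norm_num)
    · simp only [disjoint_union_left]
      refine ⟨?_, ?_⟩ <;> exact hD _ _ (by norm_num) (by norm_num) (by norm_num)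
    · exact (hR 0 (by norm_num)).2
    · exact (hR 1 (by norm_num)).2
    · exact (hR 2 (by norm_num)).2
    · exact (hR 3 (by norm_num)).2
    · exact hne 4 (by norm_num)
    · exact hsize hQ₁P hQ₁card
    · exact hTpos
  · apply poolFamily_of (R₁ := R 5) (R₂ := R 6) (R₃ := R 7) (R₄ := R 8) (R₅ := R 9) (hpr hQ₂P)
    · rw [hQ₂]; intro x hx; simp [hx]
    · rw [hQ₂]; intro x hx; simp [hx]
    · rw [hQ₂]; intro x hx; simp [hx]
    · rw [hQ₂]; intro x hx; simp [hx]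
    · rw [hQ₂]; intro x hx; simp [hx]
    · exact hD _ _ (by norm_num) (by norm_num) (by norm_num)
    · exact hD _ _ (by norm_num) (by norm_num) (by norm_num)
    · simp only [disjoint_union_left, disjoint_union_right]
      refine ⟨⟨?_, ?_⟩, ⟨?_, ?_⟩⟩ <;> exact hD _ _ (by norm_num) (by norm_num) (by norm_num)
    · simp only [disjoint_union_left]
      refine ⟨?_, ?_⟩ <;> exact hD _ _ (by norm_num) (by norm_num) (by norm_num)
    · simp only [disjoint_union_left]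
      refine ⟨?_, ?_⟩ <;> exact hD _ _ (by norm_num) (by norm_num) (by norm_num)
    · exact (hR 5 (by norm_num)).2
    · exact (hR 6 (by norm_num)).2
    · exact (hR 7 (by norm_num)).2
    · exact (hR 8 (by norm_num)).2
    · exact hne 9 (by norm_num)
    · exact hsize hQ₂P hQ₂card
    · exact hTpos

end Vale.Agent.P012h29
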