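import Vale.Agent.Lib.P012h29.Stage
import Vale.Agent.Lib.P012.Image
import Mathlib.Tactic

/-!
Most primes of a family are good: large images, then the dot product covering.
-/

namespace Vale.Agent.P012h29

open Finset

/-- Number of off-diagonal collisions modulo `v`. -/
def collCount (S : Finset ℕ) (v : ℕ) : ℕ :=
  ((S ×ˢ S).filter (fun x => x.1 ≠ x.2 ∧ (x.1 : ZMod v) = (x.2 : ZMod v))).card

/-- Total number of collisions over a family of primes. -/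
theorem sum_coll_le (S 𝒱 : Finset ℕ) (T : ℕ) (h𝒱 : ∀ v ∈ 𝒱, v.Prime)
    (hS : ∀ n ∈ S, 0 < n ∧ n ≤ 2 ^ T) :
    ∑ v ∈ 𝒱, collCount S v ≤ S.card ^ 2 * T := by
  classical
  have : ∑ v ∈ 𝒱, collCount S v = ∑ x ∈ S ×ˢ S,
      (𝒱.filter (fun v => x.1 ≠ x.2 ∧ (x.1 : ZMod v) = (x.2 : ZMod v))).card := by
    simp only [collCount, card_filter]
    rw [sum_comm]
  rw [this]
  have h2 : ∀ x ∈ S ×ˢ S,
      (𝒱.filter (fun v => x.1 ≠ x.2 ∧ (x.1 : ZMod v) = (x.2 : ZMod v))).card ≤ T := by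
    intro x hx
    by_cases hxe : x.1 = x.2
    · simp [hxe]
    · set m := max x.1 x.2 - min x.1 x.2 with hm
      have hx1 := hS x.1 (mem_product.mp hx).1
      have hx2 := hS x.2 (mem_product.mp hx).2
      have hm0 : m ≠ 0 := by
        rw [hm]; omega
      have hmT : m ≤ 2 ^ T := by
        rw [hm]; omega
      refine le_trans (card_le_card ?_) (Vale.Agent.P012.card_prime_dvd_le 𝒱 h𝒱 m T hm0 hmT)
      intro q hq
      obtain ⟨h1, _, h3⟩ := mem_filter.mp hq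
      refine mem_filter.mpr ⟨h1, ?_⟩
      rw [ZMod.natCast_eq_natCast_iff] at h3
      rcases le_total x.1 x.2 with hle | hle
      · have : m = x.2 - x.1 := by rw [hm]; omega
        rw [this]
        exact (Nat.modEq_iff_dvd' hle).mp h3
      · have : m = x.1 - x.2 := by rw [hm]; omega
        rw [this]
        exact (Nat.modEq_iff_dvd' hle).mp h3.symm
  refine (sum_le_card_nsmul _ _ _ h2).trans ?_
  simp [sq]

/-- Cauchy-Schwarz: the image bound in terms of the collisions. -/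
theorem sq_le_image_coll (S : Finset ℕ) (v : ℕ) :
    S.card ^ 2 ≤ (S.image (fun n : ℕ => (n : ZMod v))).card * (S.card + collCount S v) := by
  classical
  have hcs := Vale.Agent.P012.card_sq_le_image_mul S (fun n : ℕ => (n : ZMod v))
  refine hcs.trans (Nat.mul_le_mul_left _ ?_)
  have hsplit : (S ×ˢ S).filter (fun x => (x.1 : ZMod v) = (x.2 : ZMod v))
      ⊆ (S.image (fun n => (n, n))) ∪
        (S ×ˢ S).filter (fun x => x.1 ≠ x.2 ∧ (x.1 : ZMod v) = (x.2 : ZMod v)) := by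
    intro x hx
    obtain ⟨h1, h2⟩ := mem_filter.mp hx
    by_cases hxe : x.1 = x.2
    · apply mem_union_left
      refine mem_image.mpr ⟨x.1, (mem_product.mp h1).1, ?_⟩
      ext <;> simp [hxe]
    · exact mem_union_right _ (mem_filter.mpr ⟨h1, hxe, h2⟩)
  refine (card_le_card hsplit).trans ((card_union_le _ _).trans ?_)
  exact Nat.add_le_add_right card_image_le _

/-- For at least seven eighths of the primes, the image is large. -/
theorem most_large_image (S 𝒱 : Finset ℕ) (T : ℕ) (hT : 1 ≤ T) (h𝒱 : ∀ v ∈ 𝒱, v.Prime)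
    (hS : ∀ n ∈ S, 0 < n ∧ n ≤ 2 ^ T) (hcard : 𝒱.card ≤ S.card) :
    8 * (𝒱.filter (fun v => ¬ 𝒱.card ≤ 9 * T * (S.image (fun n : ℕ => (n : ZMod v))).card)).card
      ≤ 𝒱.card := by
  classical
  set bad := 𝒱.filter (fun v => ¬ 𝒱.card ≤ 9 * T * (S.image (fun n : ℕ => (n : ZMod v))).card)
    with hbad
  rcases Nat.eq_zero_or_pos S.card with h0 | hSpos
  · have : 𝒱.card = 0 := by omega
    have hb : bad.card ≤ 𝒱.card := card_filter_le _ _
    omega
  have hkey : ∀ v ∈ bad, 8 * (S.card ^ 2 * T) < 𝒱.card * collCount S v := by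
    intro v hv
    have hv2 := (mem_filter.mp hv).2
    by_contra hc
    push Not at hc
    apply hv2
    set I := (S.image (fun n : ℕ => (n : ZMod v))).card with hI
    have hcs := sq_le_image_coll S v
    rw [← hI] at hcs
    have h1 : S.card ^ 2 * 𝒱.card ≤ S.card ^ 2 * (9 * T * I) := by
      calc S.card ^ 2 * 𝒱.card ≤ I * (S.card + collCount S v) * 𝒱.card :=
            Nat.mul_le_mul_right _ hcs
        _ = I * (S.card * 𝒱.card + 𝒱.card * collCount S v) := by ring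
        _ ≤ I * (S.card * S.card + 8 * (S.card ^ 2 * T)) :=
            Nat.mul_le_mul_left _ (Nat.add_le_add (Nat.mul_le_mul_left _ hcard) hc)
        _ ≤ I * (S.card ^ 2 * T + 8 * (S.card ^ 2 * T)) := by
            apply Nat.mul_le_mul_left
            apply Nat.add_le_add_right
            rw [← sq]
            exact Nat.le_mul_of_pos_right _ hT
        _ = S.card ^ 2 * (9 * T * I) := by ring
    exact Nat.le_of_mul_le_mul_left h1 (by positivity)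
  have hsum := sum_coll_le S 𝒱 T h𝒱 hS
  have h1 : bad.card * (8 * (S.card ^ 2 * T)) ≤ 𝒱.card * (S.card ^ 2 * T) := by
    calc bad.card * (8 * (S.card ^ 2 * T)) = ∑ v ∈ bad, 8 * (S.card ^ 2 * T) := by simp
      _ ≤ ∑ v ∈ bad, 𝒱.card * collCount S v := sum_le_sum (fun v hv => (hkey v hv).le)
      _ = 𝒱.card * ∑ v ∈ bad, collCount S v := by rw [mul_sum]
      _ ≤ 𝒱.card * ∑ v ∈ 𝒱, collCount S v :=
          Nat.mul_le_mul_left _ (sum_le_sum_of_subset (filter_subset _ _))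
      _ ≤ 𝒱.card * (S.card ^ 2 * T) := Nat.mul_le_mul_left _ hsum
  have hpos : 0 < S.card ^ 2 * T := by positivity
  have h2 : (8 * bad.card) * (S.card ^ 2 * T) ≤ 𝒱.card * (S.card ^ 2 * T) := by
    calc (8 * bad.card) * (S.card ^ 2 * T) = bad.card * (8 * (S.card ^ 2 * T)) := by ring
      _ ≤ _ := h1
  exact Nat.le_of_mul_le_mul_right h2 hpos

/-- If four sets of residues are large, then `v` is good. -/
theorem good_of_images {w w₁ w₂ w₃ w₄ z v : ℕ} (A₁ B₁ A₂ B₂ : Finset ℕ) (hv : v.Prime)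
    (hvw : ¬ v ∣ w) (h12 : w₁ * w₂ ∣ w) (h34 : w₃ * w₄ ∣ w) (hz : z ∣ w) (hwpos : 0 < w)
    (c1 : Nat.Coprime (w₁ * w₂) (w₃ * w₄)) (c2 : Nat.Coprime (w₁ * w₂) z)
    (c3 : Nat.Coprime (w₃ * w₄) z) (hz1 : 1 < z)
    (hA₁ : ∀ a ∈ A₁, a ∣ w₁ ∧ 1 < a) (hB₁ : ∀ a ∈ B₁, a ∣ w₂ ∧ 1 < a)
    (hA₂ : ∀ a ∈ A₂, a ∣ w₃ ∧ 1 < a) (hB₂ : ∀ a ∈ B₂, a ∣ w₄ ∧ 1 < a)
    (hI : v ^ 3 < (A₁.image (fun n : ℕ => (n : ZMod v))).card *
      (A₂.image (fun n : ℕ => (n : ZMod v))).card *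
      ((B₁.image (fun n : ℕ => (n : ZMod v))).card *
      (B₂.image (fun n : ℕ => (n : ZMod v))).card)) : Good w v := by
  classical
  have : Fact v.Prime := ⟨hv⟩
  set 𝒜 := (A₁.image (fun n : ℕ => (n : ZMod v))) ×ˢ (A₂.image (fun n : ℕ => (n : ZMod v))) with h𝒜
  set ℬ := (B₁.image (fun n : ℕ => (n : ZMod v))) ×ˢ (B₂.image (fun n : ℕ => (n : ZMod v))) with hℬ
  have hdvdne : ∀ d, d ∣ w → (d : ZMod v) ≠ 0 := by
    intro d hd h0
    rw [ZMod.natCast_eq_zero_iff] at h0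
    exact hvw (h0.trans hd)
  have hb : ∀ b ∈ ℬ, b.1 ≠ 0 := by
    intro b hb
    obtain ⟨h1, _⟩ := mem_product.mp hb
    obtain ⟨a, ha, e⟩ := mem_image.mp h1
    rw [← e]
    obtain ⟨a1, _⟩ := hB₁ a ha
    apply hdvdne
    exact (a1.trans (dvd_mul_left _ _)).trans h12
  have hc : (-(z : ZMod v)) ≠ 0 := neg_ne_zero.mpr (hdvdne z hz)
  have hcard : v ^ 3 < 𝒜.card * ℬ.card := by
    rw [h𝒜, hℬ, card_product, card_product]
    exact hI
  obtain ⟨a, ha, b, hb', hab⟩ := Vale.Agent.P012.dot_cover 𝒜 ℬ hb _ hc hcard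
  obtain ⟨h1, h2⟩ := mem_product.mp ha
  obtain ⟨h3, h4⟩ := mem_product.mp hb'
  obtain ⟨a₁, ha₁, e1⟩ := mem_image.mp h1
  obtain ⟨a₂, ha₂, e2⟩ := mem_image.mp h2
  obtain ⟨b₁, hb₁, e3⟩ := mem_image.mp h3
  obtain ⟨b₂, hb₂, e4⟩ := mem_image.mp h4
  rw [← e1, ← e2, ← e3, ← e4] at hab
  obtain ⟨d1, o1⟩ := hA₁ a₁ ha₁
  obtain ⟨d2, o2⟩ := hB₁ b₁ hb₁
  obtain ⟨d3, o3⟩ := hA₂ a₂ ha₂
  obtain ⟨d4, o4⟩ := hB₂ b₂ hb₂
  have dx : a₁ * b₁ ∣ w₁ * w₂ := Nat.mul_dvd_mul d1 d2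
  have dy : a₂ * b₂ ∣ w₃ * w₄ := Nat.mul_dvd_mul d3 d4
  refine ⟨a₁ * b₁, a₂ * b₂, z, dx.trans h12, dy.trans h34, hz, by nlinarith, by nlinarith, hz1,
    Nat.Coprime.coprime_dvd_left dx (Nat.Coprime.coprime_dvd_right dy c1),
    Nat.Coprime.coprime_dvd_left dx c2, Nat.Coprime.coprime_dvd_left dy c3, ?_⟩
  rw [← ZMod.natCast_eq_zero_iff]
  push_cast
  rw [hab]
  ring

end Vale.Agent.P012h29
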