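import Vale.Agent.Lib.P012h29.Assemble
import Mathlib.Tactic

/-!
Choice of the parameters.
-/

namespace Vale.Agent.P012h29

open Finset

theorem pow_bound_base (ι : ℕ) (h : 20 ≤ ι) : 2000 * ι * (ι + 4) ≤ 2 ^ ι := by
  induction ι, h using Nat.le_induction with
  | base => norm_num
  | succ n hn ih =>
    rw [pow_succ]
    nlinarith

theorem h_bound (ι : ℕ) (hι : 20 ≤ ι) : ∀ h, 2 * ι ≤ h → 100 * h * (10 * (ι + 4) * 2 ^ ι) ≤ 2 ^ h := by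
  intro h hh
  have hp := pow_bound_base ι hι
  induction h, hh using Nat.le_induction with
  | base =>
    have e : 2 ^ (2 * ι) = 2 ^ ι * 2 ^ ι := by rw [two_mul, pow_add]
    rw [e]
    calc 100 * (2 * ι) * (10 * (ι + 4) * 2 ^ ι) = (2000 * ι * (ι + 4)) * 2 ^ ι := by ring
      _ ≤ 2 ^ ι * 2 ^ ι := Nat.mul_le_mul_right _ hp
  | succ n hn ih =>
    rw [pow_succ]
    have h1 : 1 ≤ n := by omega
    have hT : 0 ≤ 100 * (10 * (ι + 4) * 2 ^ ι) := Nat.zero_le _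
    nlinarith

/-- The pools, with all the levels. -/
theorem pools_levels (ι imin : ℕ) (hι : 20 ≤ ι) (h8 : 8 * ι ≤ 2 ^ imin) (himin2 : 2 ≤ imin) :
    ∃ w₁ w₂ : ℕ, Odd w₁ ∧ Odd w₂ ∧ ¬ 3 ∣ w₁ ∧ ¬ 3 ∣ w₂ ∧ Nat.Coprime w₁ w₂ ∧
      w₁ * w₂ ≤ 2 ^ (2 * (10 * (ι + 4) * 2 ^ ι)) ∧
      ∀ i, imin ≤ i → i < ι → ∃ q, Level w₁ w₂ (2 ^ i) q ∧ q ≤ 2 ^ (2 ^ i + 1) := by
  obtain ⟨w₁, w₂, hw₁, hw₂, h3₁, h3₂, hcop, hle₁, hle₂, hP₁, hP₂⟩ := exists_pools ι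
  have hTpos : 1 ≤ 10 * (ι + 4) * 2 ^ ι := by
    have : 1 ≤ 2 ^ ι := Nat.one_le_two_pow
    have : 1 ≤ (ι + 4) * 2 ^ ι := Nat.mul_pos (by omega) this
    nlinarith
  have hw0 : w₁ * w₂ ≠ 0 := (Nat.mul_pos hw₁.pos hw₂.pos).ne'
  have hwT : w₁ * w₂ ≤ 2 ^ (2 * (10 * (ι + 4) * 2 ^ ι)) := by
    calc w₁ * w₂ ≤ 2 ^ (10 * (ι + 4) * 2 ^ ι) * 2 ^ (10 * (ι + 4) * 2 ^ ι) :=
          Nat.mul_le_mul hle₁ hle₂
      _ = _ := by rw [two_mul, pow_add]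
  refine ⟨w₁, w₂, hw₁, hw₂, h3₁, h3₂, hcop, hwT, ?_⟩
  intro i hi hiι
  have e : 2 ^ i = 4 * 2 ^ (i - 2) := by
    have : i = 2 + (i - 2) := by omega
    conv_lhs => rw [this, pow_add]
    norm_num
  have hge : 2 * ι ≤ 2 ^ (i - 2) := by
    have h7 : 2 ^ imin ≤ 2 ^ i := Nat.pow_le_pow_right (by norm_num) hi
    omega
  have hω : 4 * 2 ^ (i - 2) < 2 ^ ι := by
    rw [← e]
    exact Nat.pow_lt_pow_right (by norm_num) hiι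
  have := level_exists hP₁ hP₂ hw0 hwT hTpos (Nat.one_le_two_pow) (h_bound ι hι _ hge) hω
  rw [← e] at this
  exact this

/-- The top of the descent. -/
theorem core_top {w₁ w₂ imin ι' L₁ L : ℕ} (hw₁ : Odd w₁) (hw₂ : Odd w₂) (h3₁ : ¬ 3 ∣ w₁)
    (h3₂ : ¬ 3 ∣ w₂) (hcop : Nat.Coprime w₁ w₂)
    (hlev : ∀ i, imin ≤ i → i < ι' + 1 → ∃ q, Level w₁ w₂ (2 ^ i) q ∧ q ≤ 2 ^ (2 ^ i + 1))
    (himin : 2 ≤ imin) (himinle : imin ≤ ι') (hL : 2 * (ι' - imin) + L₁ ≤ L) :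
    CoreAt w₁ w₂ (2 * L + 5 + 2 ^ (imin + 1) + 1) (2 * L + 5 + 2 ^ (imin + 1))
      (2 * L + 5 + 2 ^ (ι' + 1) + L₁ * 2 ^ ι') (2 * (ι' - imin) + L₁) := by
  have hbase : CoreAt w₁ w₂ (2 * L + 5 + 2 ^ (imin + 1) + 1) (2 * L + 5 + 2 ^ (imin + 1))
      (2 * L + 5 + 2 ^ (imin + 1)) 0 := core_base hw₁ hw₂ h3₁ h3₂ (le_refl _)
  have hEL : 2 * L + 3 ≤ 2 * L + 5 + 2 ^ (imin + 1) + 1 := by
    generalize 2 ^ (imin + 1) = x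
    omega
  have hgeo := core_geo (L := L) (ι := ι' + 1) hw₁ hw₂ h3₁ h3₂ hcop hlev (by omega) (le_refl _) hEL hbase
    (ι' - imin) (by omega) (by omega)
  have ed : imin + (ι' - imin) + 1 = ι' + 1 := by omega
  rw [ed] at hgeo
  obtain ⟨q, hLq, hq⟩ := hlev ι' (by omega) (by omega)
  exact core_lin hw₁ hw₂ h3₁ h3₂ hcop hLq hq (by omega) (le_refl _) hEL hgeo L₁ (by omega)

/-- Ceiling of the binary logarithm. -/
theorem exists_clog (x : ℕ) (hx : 1 < x) :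
    ∃ κ, x ≤ 2 ^ κ ∧ 1 ≤ κ ∧ 2 ^ κ < 2 * x ∧ ∀ y, x ≤ 2 ^ y → κ ≤ y := by
  have h1 : x ≤ 2 ^ Nat.clog 2 x := Nat.le_pow_clog (by norm_num) x
  have h2 : 2 ^ (Nat.clog 2 x - 1) < x := Nat.pow_pred_clog_lt_self (by norm_num) hx
  have h3 : 0 < Nat.clog 2 x := Nat.clog_pos (by norm_num) hx
  refine ⟨Nat.clog 2 x, h1, h3, ?_, fun y hy => Nat.clog_le_of_le_pow hy⟩
  have e : 2 ^ Nat.clog 2 x = 2 * 2 ^ (Nat.clog 2 x - 1) := by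
    rw [← pow_succ']
    have : Nat.clog 2 x - 1 + 1 = Nat.clog 2 x := by omega
    rw [this]
  rw [e]
  omega

/-- Existence of the exponent for the greedy phase. -/
theorem exists_kappa (ι : ℕ) (hι : 20 ≤ ι) :
    ∃ κ, κ ≤ ι ∧ 21 * (ι + 4) ≤ 2 ^ κ ∧ 2 ^ κ < 42 * (ι + 4) := by
  obtain ⟨κ, h1, _, h3, h4⟩ := exists_clog (21 * (ι + 4)) (by omega)
  refine ⟨κ, h4 ι ?_, h1, by omega⟩
  have hp := pow_bound_base ι hι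
  have h2 : 20 * (ι + 4) ≤ ι * (ι + 4) := Nat.mul_le_mul_right _ hι
  nlinarith

/-- Existence of the lowest level. -/
theorem exists_imin (ι' : ℕ) (hι : 20 ≤ ι' + 1) :
    ∃ imin, 2 ≤ imin ∧ imin ≤ ι' ∧ 8 * (ι' + 1) ≤ 2 ^ imin ∧ 2 ^ imin < 16 * (ι' + 1) := by
  have hpb := pow_bound_base (ι' + 1) hι
  obtain ⟨imin, h1, _, h3, h4⟩ := exists_clog (8 * (ι' + 1)) (by omega)
  refine ⟨imin, ?_, h4 ι' ?_, h1, by omega⟩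
  · by_contra hc
    have h6 : imin ≤ 1 := by omega
    have h7 : 2 ^ imin ≤ 2 ^ 1 := Nat.pow_le_pow_right (by norm_num) h6
    omega
  · have e : 2 ^ (ι' + 1) = 2 * 2 ^ ι' := by rw [pow_succ]; ring
    have h5 : 20 * (ι' + 1 + 4) ≤ (ι' + 1) * (ι' + 1 + 4) := Nat.mul_le_mul_right _ hι
    nlinarith

theorem num_h1 {O W μb μ k T A : ℕ} (hsize : O * 2 ^ μb ≤ 3 * W * 2 ^ (μ + k))
    (hW : W ≤ 2 ^ (2 * T)) (hA : 3 + 2 * T + k ≤ A) : 2 ^ (μb + 1) * O ≤ 2 ^ (A + μ) := by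
  have e1 : 2 ^ (μb + 1) * O = 2 * (O * 2 ^ μb) := by rw [pow_succ]; ring
  rw [e1]
  calc 2 * (O * 2 ^ μb) ≤ 2 * (3 * W * 2 ^ (μ + k)) := Nat.mul_le_mul_left _ hsize
    _ ≤ 2 * (2 ^ 2 * 2 ^ (2 * T) * 2 ^ (μ + k)) := by
        apply Nat.mul_le_mul_left
        apply Nat.mul_le_mul_right
        exact Nat.mul_le_mul (by norm_num) hW
    _ = 2 ^ (3 + 2 * T + k + μ) := by
        have : 3 + 2 * T + k + μ = 1 + (2 + (2 * T + (μ + k))) := by ring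
        rw [this, pow_add 2 1, pow_add 2 2, pow_add 2 (2 * T)]
        ring
    _ ≤ 2 ^ (A + μ) := Nat.pow_le_pow_right (by norm_num) (by omega)

/-- First numerical condition. -/
theorem num_J {ι κ k : ℕ} (hι : 20 ≤ ι) (h21 : 21 * (ι + 4) ≤ 2 ^ κ) (hk : k ≤ 602 * (ι + 4)) :
    3 + 2 * (10 * (ι + 4) * 2 ^ ι) + k ≤ 2 ^ (ι + κ) := by
  have hp := pow_bound_base ι hι
  rw [pow_add]
  generalize 2 ^ κ = K at *
  generalize 2 ^ ι = p at *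
  have hp1000 : 1000 ≤ p := by
    have h2 : 20 * 24 ≤ ι * (ι + 4) := Nat.mul_le_mul hι (by omega)
    nlinarith
  have h1 : p * (21 * (ι + 4)) ≤ p * K := Nat.mul_le_mul_left _ h21
  have hprod : (ι + 4) * 1000 ≤ (ι + 4) * p := Nat.mul_le_mul_left _ hp1000
  nlinarith

/-- Second numerical condition. -/
theorem num_μ {ι' κ imin S : ℕ} (hι : 20 ≤ ι' + 1) (h42 : 2 ^ κ < 42 * (ι' + 1 + 4))
    (h16 : 2 ^ imin < 16 * (ι' + 1)) :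
    S + 2 ^ (imin + 1) + 1 + 1 + 3 * 2 ^ (ι' + 1 + κ + 1)
      ≤ S + 2 ^ (ι' + 1) + 600 * (ι' + 1 + 4) * 2 ^ ι' := by
  have hp := pow_bound_base (ι' + 1) hι
  have e1 : 2 ^ (imin + 1) = 2 * 2 ^ imin := by rw [pow_succ]; ring
  have e2 : 2 ^ (ι' + 1 + κ + 1) = 2 * (2 * 2 ^ ι' * 2 ^ κ) := by
    rw [pow_succ, pow_add, pow_succ]; ring
  have e3 : 2 ^ (ι' + 1) = 2 * 2 ^ ι' := by rw [pow_succ]; ring
  rw [e1, e2, e3]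
  rw [e3] at hp
  generalize 2 ^ κ = K at *
  generalize 2 ^ imin = M at *
  generalize 2 ^ ι' = p at *
  have hpos : 1 ≤ p := by
    by_contra hc
    have : p = 0 := by omega
    subst this
    have h2 : 20 * 24 ≤ (ι' + 1) * (ι' + 1 + 4) := Nat.mul_le_mul hι (by omega)
    nlinarith
  have h1 : p * K ≤ p * (42 * (ι' + 1 + 4)) := Nat.mul_le_mul_left _ h42.le
  have hX : (ι' + 1 + 4) * 1 ≤ (ι' + 1 + 4) * p := Nat.mul_le_mul_left _ hpos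
  nlinarith

/-- The whole construction, with natural-number parameters. -/
theorem main_nat (ι' : ℕ) (hι : 20 ≤ ι' + 1) {a b : ℕ} (ha : 0 < a) (hab : a < b)
    (hb : b ≤ 2 ^ (2 ^ (ι' + 1))) :
    ∃ S : Finset ℕ, (∀ n ∈ S, 2 ≤ n) ∧ (∑ n ∈ S, (1 : ℚ) / n) = (a : ℚ) / b ∧
      S.card ≤ 30000 * (ι' + 1) := by
  obtain ⟨imin, him2, himle, h8, h16⟩ := exists_imin ι' hι
  obtain ⟨κ, hκι, h21, h42⟩ := exists_kappa (ι' + 1) hι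
  obtain ⟨w₁, w₂, hw₁, hw₂, h3₁, h3₂, hcop, hwT, hlev⟩ := pools_levels (ι' + 1) imin hι h8 him2
  obtain ⟨L₁, hL₁⟩ : ∃ L₁, L₁ = 600 * (ι' + 1 + 4) := ⟨_, rfl⟩
  obtain ⟨L, hL⟩ : ∃ L, L = 2 * (ι' + 1) + L₁ := ⟨_, rfl⟩
  have hcore := core_top (L₁ := L₁) (L := L) hw₁ hw₂ h3₁ h3₂ hcop hlev him2 himle (by omega)
  obtain ⟨O, hO, h3O, hwO, hsize, hclaim⟩ := hcore
  obtain ⟨k, hk⟩ : ∃ k, k = 2 * (ι' - imin) + L₁ := ⟨_, rfl⟩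
  rw [← hk] at hsize hclaim
  have hkle : k ≤ L := by omega
  have h1 := num_h1 hsize hwT (num_J hι h21 (by omega : k ≤ 602 * (ι' + 1 + 4)))
  have h2 := num_μ (S := 2 * L + 5) hι h42 (by omega : 2 ^ imin < 16 * (ι' + 1))
  rw [hL₁] at hclaim h1
  obtain ⟨S, hS1, hS2, hS3⟩ := assemble ha hab hb (J := ι' + 1 + κ) (by omega) hO.pos hclaim h1 h2
  refine ⟨S, hS1, hS2, hS3.trans ?_⟩
  have e1 : 2 ^ (imin + 1) = 2 * 2 ^ imin := by rw [pow_succ]; ring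
  rw [e1]
  omega

end Vale.Agent.P012h29
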