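import Vale.Agent.Lib.P012h29.GoodPrimes
import Mathlib.NumberTheory.Chebyshev
import Mathlib.NumberTheory.PrimeCounting
import Mathlib.NumberTheory.Bertrand
import Mathlib.Analysis.SpecialFunctions.Log.Basic
import Mathlib.Tactic

/-!
Pools of primes and the levels.
-/

namespace Vale.Agent.P012h29

open Finset

/-- Products of the nonempty subsets of `R`. -/
def subProd (R : Finset ℕ) : Finset ℕ := (R.powerset.erase ∅).image (fun s => ∏ p ∈ s, p)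

theorem subProd_card (R : Finset ℕ) (hR : ∀ p ∈ R, p.Prime) :
    (subProd R).card = 2 ^ R.card - 1 := by
  rw [subProd, card_image_of_injOn, card_erase_of_mem (empty_mem_powerset R), card_powerset]
  intro s hs t ht hst
  have h1 := mem_powerset.mp (mem_erase.mp (mem_coe.mp hs)).2
  have h2 := mem_powerset.mp (mem_erase.mp (mem_coe.mp ht)).2
  have e1 := Nat.primeFactors_prod (fun p hp' => hR p (h1 hp'))
  have e2 := Nat.primeFactors_prod (fun p hp' => hR p (h2 hp'))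
  simp only at hst
  rw [← e1, ← e2, hst]

theorem one_lt_prod {R : Finset ℕ} (hR : ∀ p ∈ R, p.Prime) (hne : R.Nonempty) :
    1 < ∏ p ∈ R, p := by
  obtain ⟨p, hp⟩ := hne
  have h1 : p ∣ ∏ p ∈ R, p := dvd_prod_of_mem _ hp
  have h2 : 0 < ∏ p ∈ R, p := prod_pos (fun q hq => (hR q hq).pos)
  have h3 := Nat.le_of_dvd h2 h1
  have h4 := (hR p hp).two_le
  omega

theorem subProd_mem {R : Finset ℕ} (hR : ∀ p ∈ R, p.Prime) {a : ℕ} (ha : a ∈ subProd R) :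
    a ∣ ∏ p ∈ R, p ∧ 1 < a := by
  obtain ⟨s, hs, rfl⟩ := mem_image.mp ha
  obtain ⟨h0, h1⟩ := mem_erase.mp hs
  have h2 := mem_powerset.mp h1
  exact ⟨prod_dvd_prod_of_subset _ _ _ h2, one_lt_prod (fun p hp => hR p (h2 hp))
    (nonempty_iff_ne_empty.mpr h0)⟩

theorem coprime_prod {R R' : Finset ℕ} (hR : ∀ p ∈ R, p.Prime) (hR' : ∀ p ∈ R', p.Prime)
    (hd : Disjoint R R') : Nat.Coprime (∏ p ∈ R, p) (∏ p ∈ R', p) := by
  apply Nat.Coprime.prod_left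
  intro p hp
  apply Nat.Coprime.prod_right
  intro q hq
  rw [Nat.coprime_primes (hR p hp) (hR' q hq)]
  rintro rfl
  exact (disjoint_left.mp hd hp) hq

/-- The good primes statement for a number `w`. -/
def PoolFamily (w T ω : ℕ) : Prop :=
  ∀ (𝒱 : Finset ℕ) (X : ℕ), (∀ v ∈ 𝒱, v.Prime ∧ ¬ v ∣ w ∧ v ≤ X) → 𝒱.card + 1 ≤ 2 ^ ω →
    (9 * T) ^ 4 * X ^ 3 < 𝒱.card ^ 4 →
    ∃ T' ⊆ 𝒱, 𝒱.card ≤ 2 * T'.card ∧ ∀ t ∈ T', Good w t

theorem poolFamily_of {R₁ R₂ R₃ R₄ R₅ Q : Finset ℕ} {T ω : ℕ} (hQ : ∀ p ∈ Q, p.Prime)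
    (h1 : R₁ ⊆ Q) (h2 : R₂ ⊆ Q) (h3 : R₃ ⊆ Q) (h4 : R₄ ⊆ Q) (h5 : R₅ ⊆ Q)
    (d12 : Disjoint R₁ R₂) (d34 : Disjoint R₃ R₄) (d1234 : Disjoint (R₁ ∪ R₂) (R₃ ∪ R₄))
    (d125 : Disjoint (R₁ ∪ R₂) R₅) (d345 : Disjoint (R₃ ∪ R₄) R₅)
    (c1 : R₁.card = ω) (c2 : R₂.card = ω) (c3 : R₃.card = ω) (c4 : R₄.card = ω)
    (hne : R₅.Nonempty) (hwT : ∏ p ∈ Q, p ≤ 2 ^ T) (hT : 1 ≤ T) :
    PoolFamily (∏ p ∈ Q, p) T ω := by
  classical
  intro 𝒱 X h𝒱 hcard hnum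
  have hQpos : 0 < ∏ p ∈ Q, p := prod_pos (fun q hq => (hQ q hq).pos)
  have p𝒱 : ∀ v ∈ 𝒱, v.Prime := fun v hv => (h𝒱 v hv).1
  have hpr : ∀ {R : Finset ℕ}, R ⊆ Q → ∀ p ∈ R, p.Prime := fun hs p hp => hQ p (hs hp)
  have hmem : ∀ {R : Finset ℕ}, R ⊆ Q → ∀ n ∈ subProd R, 0 < n ∧ n ≤ 2 ^ T := by
    intro R hs n hn
    obtain ⟨a, b⟩ := subProd_mem (hpr hs) hn
    refine ⟨by omega, ?_⟩
    exact (Nat.le_of_dvd hQpos (a.trans (prod_dvd_prod_of_subset _ _ _ hs))).trans hwT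
  have hcardS : ∀ {R : Finset ℕ}, R ⊆ Q → R.card = ω → 𝒱.card ≤ (subProd R).card := by
    intro R hs hc
    rw [subProd_card R (hpr hs), hc]
    omega
  have m1 := most_large_image (subProd R₁) 𝒱 T hT p𝒱 (hmem h1) (hcardS h1 c1)
  have m2 := most_large_image (subProd R₂) 𝒱 T hT p𝒱 (hmem h2) (hcardS h2 c2)
  have m3 := most_large_image (subProd R₃) 𝒱 T hT p𝒱 (hmem h3) (hcardS h3 c3)
  have m4 := most_large_image (subProd R₄) 𝒱 T hT p𝒱 (hmem h4) (hcardS h4 c4)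
  set I : Finset ℕ → ℕ → ℕ := fun R v => ((subProd R).image (fun n : ℕ => (n : ZMod v))).card with hI
  set T' := 𝒱.filter (fun v => 𝒱.card ≤ 9 * T * I R₁ v ∧ 𝒱.card ≤ 9 * T * I R₂ v ∧
    𝒱.card ≤ 9 * T * I R₃ v ∧ 𝒱.card ≤ 9 * T * I R₄ v) with hT'
  refine ⟨T', filter_subset _ _, ?_, ?_⟩
  · have hsub : 𝒱 ⊆ T' ∪ ((𝒱.filter (fun v => ¬ 𝒱.card ≤ 9 * T * I R₁ v)) ∪
        ((𝒱.filter (fun v => ¬ 𝒱.card ≤ 9 * T * I R₂ v)) ∪
        ((𝒱.filter (fun v => ¬ 𝒱.card ≤ 9 * T * I R₃ v)) ∪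
        (𝒱.filter (fun v => ¬ 𝒱.card ≤ 9 * T * I R₄ v))))) := by
      intro v hv
      simp only [hT', mem_union, mem_filter, hv, true_and]
      tauto
    have h6 := card_le_card hsub
    have h7 := card_union_le T' ((𝒱.filter (fun v => ¬ 𝒱.card ≤ 9 * T * I R₁ v)) ∪
        ((𝒱.filter (fun v => ¬ 𝒱.card ≤ 9 * T * I R₂ v)) ∪
        ((𝒱.filter (fun v => ¬ 𝒱.card ≤ 9 * T * I R₃ v)) ∪
        (𝒱.filter (fun v => ¬ 𝒱.card ≤ 9 * T * I R₄ v)))))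
    have h8 := card_union_le (𝒱.filter (fun v => ¬ 𝒱.card ≤ 9 * T * I R₁ v))
        ((𝒱.filter (fun v => ¬ 𝒱.card ≤ 9 * T * I R₂ v)) ∪
        ((𝒱.filter (fun v => ¬ 𝒱.card ≤ 9 * T * I R₃ v)) ∪
        (𝒱.filter (fun v => ¬ 𝒱.card ≤ 9 * T * I R₄ v))))
    have h9 := card_union_le (𝒱.filter (fun v => ¬ 𝒱.card ≤ 9 * T * I R₂ v))
        ((𝒱.filter (fun v => ¬ 𝒱.card ≤ 9 * T * I R₃ v)) ∪
        (𝒱.filter (fun v => ¬ 𝒱.card ≤ 9 * T * I R₄ v)))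
    have h10 := card_union_le (𝒱.filter (fun v => ¬ 𝒱.card ≤ 9 * T * I R₃ v))
        (𝒱.filter (fun v => ¬ 𝒱.card ≤ 9 * T * I R₄ v))
    simp only [hI] at h6 h7 h8 h9 h10 ⊢
    omega
  · intro t ht
    obtain ⟨htV, a1, a2, a3, a4⟩ := mem_filter.mp ht
    obtain ⟨hp, hnd, hle⟩ := h𝒱 t htV
    have e12 : (∏ p ∈ R₁, p) * (∏ p ∈ R₂, p) = ∏ p ∈ R₁ ∪ R₂, p := (prod_union d12).symm
    have e34 : (∏ p ∈ R₃, p) * (∏ p ∈ R₄, p) = ∏ p ∈ R₃ ∪ R₄, p := (prod_union d34).symm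
    have s12 : R₁ ∪ R₂ ⊆ Q := union_subset h1 h2
    have s34 : R₃ ∪ R₄ ⊆ Q := union_subset h3 h4
    refine good_of_images (w₁ := ∏ p ∈ R₁, p) (w₂ := ∏ p ∈ R₂, p) (w₃ := ∏ p ∈ R₃, p)
      (w₄ := ∏ p ∈ R₄, p) (z := ∏ p ∈ R₅, p)
      (subProd R₁) (subProd R₂) (subProd R₃) (subProd R₄) hp hnd ?_ ?_ ?_ hQpos ?_ ?_ ?_ ?_ ?_ ?_ ?_ ?_ ?_
    · rw [e12]; exact prod_dvd_prod_of_subset _ _ _ s12
    · rw [e34]; exact prod_dvd_prod_of_subset _ _ _ s34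
    · exact prod_dvd_prod_of_subset _ _ _ h5
    · rw [e12, e34]; exact coprime_prod (hpr s12) (hpr s34) d1234
    · rw [e12]; exact coprime_prod (hpr s12) (hpr h5) d125
    · rw [e34]; exact coprime_prod (hpr s34) (hpr h5) d345
    · exact one_lt_prod (hpr h5) hne
    · exact fun a ha => subProd_mem (hpr h1) ha
    · exact fun a ha => subProd_mem (hpr h2) ha
    · exact fun a ha => subProd_mem (hpr h3) ha
    · exact fun a ha => subProd_mem (hpr h4) ha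
    · have hpow : 0 < (9 * T) ^ 4 := by positivity
      apply Nat.lt_of_mul_lt_mul_left (a := (9 * T) ^ 4)
      calc (9 * T) ^ 4 * t ^ 3 ≤ (9 * T) ^ 4 * X ^ 3 :=
            Nat.mul_le_mul_left _ (Nat.pow_le_pow_left hle 3)
        _ < 𝒱.card ^ 4 := hnum
        _ = 𝒱.card * 𝒱.card * (𝒱.card * 𝒱.card) := by ring
        _ ≤ (9 * T * I R₁ t) * (9 * T * I R₃ t) * ((9 * T * I R₂ t) * (9 * T * I R₄ t)) :=
            Nat.mul_le_mul (Nat.mul_le_mul a1 a3) (Nat.mul_le_mul a2 a4)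
        _ = _ := by simp only [hI]; ring

/-- Chebyshev, in the form used here. -/
theorem pi_lower (n : ℕ) (hn : 1 ≤ n) : 2 ^ n ≤ n * Nat.primeCounting (2 ^ n) + n + 1 := by
  have hpi := Chebyshev.pi_ge (2 ^ n)
  have hl2 : 0 < Real.log 2 := Real.log_pos (by norm_num)
  have hnr : (0:ℝ) < n := by exact_mod_cast hn
  have hlogn : Real.log (((2 ^ n : ℕ) : ℝ)) = n * Real.log 2 := by
    push_cast
    rw [Real.log_pow]
  have hn1 : Real.log (((2 ^ n : ℕ) : ℝ) + 1) ≤ (n + 1) * Real.log 2 := by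
    have h1 : ((2 ^ n : ℕ) : ℝ) + 1 ≤ (2:ℝ) ^ (n + 1) := by
      have : 1 ≤ 2 ^ n := Nat.one_le_two_pow
      have h2 : 2 ^ n + 1 ≤ 2 ^ (n + 1) := by
        rw [pow_succ]; omega
      exact_mod_cast h2
    calc _ ≤ Real.log ((2:ℝ) ^ (n + 1)) := Real.log_le_log (by positivity) h1
      _ = _ := by
          rw [Real.log_pow]
          push_cast; ring
  rw [hlogn, div_le_iff₀ (by positivity)] at hpi
  have key : ((2:ℝ) ^ n) * Real.log 2 ≤ ((n : ℝ) * Nat.primeCounting (2 ^ n) + n + 1) * Real.log 2 := by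
    push_cast at hpi hn1
    nlinarith
  have h3 := le_of_mul_le_mul_right key hl2
  exact_mod_cast h3

/-- The numerical heart of a level. -/
theorem level_numeric (T h π' : ℕ) (hT : 1 ≤ T) (hh : 1 ≤ h)
    (hnum : 100 * h * T ≤ 2 ^ h) (hpi : 2 ^ (4 * h) ≤ (4 * h) * π' + (4 * h) + 1) :
    9 * T * 2 ^ (3 * h) + 2 * T < π' := by
  by_contra hc
  push Not at hc
  have hB : 1 ≤ 2 ^ (3 * h) := Nat.one_le_two_pow
  set B := 2 ^ (3 * h) with hBdef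
  have e : 2 ^ (4 * h) = 2 ^ h * B := by
    rw [hBdef, ← pow_add]; congr 1; ring
  rw [e] at hpi
  have h1 : 100 * h * T * B ≤ 2 ^ h * B := Nat.mul_le_mul_right _ hnum
  have h2 : π' ≤ 11 * T * B := by nlinarith
  have h3 : (4 * h) * π' ≤ (4 * h) * (11 * T * B) := Nat.mul_le_mul_left _ h2
  have h4 : 1 ≤ h * T * B := by
    have : 1 ≤ h * T := Nat.mul_pos hh hT
    exact Nat.mul_pos this hB
  have h5 : h ≤ h * T * B := by
    have : 1 ≤ T * B := Nat.mul_pos hT hB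
    calc h = h * 1 := by ring
      _ ≤ h * (T * B) := Nat.mul_le_mul_left _ this
      _ = h * T * B := by ring
  nlinarith

/-- Existence of a level. -/
theorem level_exists {w₁ w₂ T ω h : ℕ} (hP₁ : PoolFamily w₁ T ω) (hP₂ : PoolFamily w₂ T ω)
    (hw0 : w₁ * w₂ ≠ 0) (hwT : w₁ * w₂ ≤ 2 ^ (2 * T)) (hT : 1 ≤ T) (hh : 1 ≤ h)
    (hnum : 100 * h * T ≤ 2 ^ h) (hω : 4 * h < ω) :
    ∃ q, Level w₁ w₂ (4 * h) q ∧ q ≤ 2 ^ (4 * h + 1) := by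
  classical
  set X := 2 ^ (4 * h) with hX
  have hXpos : 0 < X := by positivity
  set Pr := Nat.primesLE X with hPr
  have hPrp : ∀ p ∈ Pr, p.Prime := fun p hp => (Nat.mem_primesLE.mp hp).2
  set 𝒱 := Pr.filter (fun p => ¬ p ∣ w₁ * w₂) with h𝒱
  have hcount : Pr.card ≤ 𝒱.card + 2 * T := by
    have h1 : (Pr.filter (fun p => p ∣ w₁ * w₂)).card + 𝒱.card = Pr.card :=
      card_filter_add_card_filter_not (s := Pr) (fun p => p ∣ w₁ * w₂)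
    have h2 := Vale.Agent.P012.card_prime_dvd_le Pr hPrp (w₁ * w₂) (2 * T) hw0 hwT
    omega
  have hPrcard : Pr.card = Nat.primeCounting X := Nat.primesLE_card_eq_primeCounting X
  have hlow := level_numeric T h (Nat.primeCounting X) hT hh hnum (pi_lower (4 * h) (by omega))
  have hV : 9 * T * 2 ^ (3 * h) < 𝒱.card := by omega
  have hnum4 : (9 * T) ^ 4 * X ^ 3 < 𝒱.card ^ 4 := by
    have e : (9 * T) ^ 4 * X ^ 3 = (9 * T * 2 ^ (3 * h)) ^ 4 := by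
      rw [hX, mul_pow _ (2 ^ (3 * h)) 4, ← pow_mul, ← pow_mul]
      ring_nf
    rw [e]
    exact Nat.pow_lt_pow_left hV (by norm_num)
  have hPrle : Pr.card ≤ X := by
    have hsub : Pr ⊆ Icc 1 X := by
      intro p hp
      obtain ⟨a, b⟩ := Nat.mem_primesLE.mp hp
      exact mem_Icc.mpr ⟨b.one_lt.le, a⟩
    have := card_le_card hsub
    simpa using this
  have hVle : 𝒱.card ≤ Pr.card := card_filter_le _ _
  have hsize : 𝒱.card + 1 ≤ 2 ^ ω := by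
    have h1 : 2 ^ (4 * h + 1) ≤ 2 ^ ω := Nat.pow_le_pow_right (by norm_num) hω
    have h2 : 2 ^ (4 * h + 1) = 2 * X := by rw [pow_succ, hX]; ring
    omega
  have hprop : ∀ v ∈ 𝒱, v.Prime ∧ ¬ v ∣ w₁ * w₂ ∧ v ≤ X := by
    intro v hv
    obtain ⟨a, b⟩ := mem_filter.mp hv
    exact ⟨hPrp v a, b, (Nat.mem_primesLE.mp a).1⟩
  obtain ⟨T₁, hs₁, hc₁, hg₁⟩ := hP₁ 𝒱 X (fun v hv => ⟨(hprop v hv).1,
    fun hd => (hprop v hv).2.1 (Dvd.dvd.mul_right hd _), (hprop v hv).2.2⟩) hsize hnum4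
  obtain ⟨T₂, hs₂, hc₂, hg₂⟩ := hP₂ 𝒱 X (fun v hv => ⟨(hprop v hv).1,
    fun hd => (hprop v hv).2.1 (Dvd.dvd.mul_left hd _), (hprop v hv).2.2⟩) hsize hnum4
  obtain ⟨q, hq, hq1, hq2⟩ := Nat.exists_prime_lt_and_le_two_mul X hXpos.ne'
  refine ⟨q, ⟨hq, hq1, T₁, T₂, fun t ht => ⟨(hprop t (hs₁ ht)).2.2, hg₁ t ht⟩,
    fun t ht => ⟨(hprop t (hs₂ ht)).2.2, hg₂ t ht⟩, ?_⟩, by rw [pow_succ]; omega⟩
  -- the cardinality inequality
  have hT9 : 128 ≤ (9 * T) ^ 4 := by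
    calc 128 ≤ 9 ^ 4 := by norm_num
      _ ≤ (9 * T) ^ 4 := Nat.pow_le_pow_left (by omega) 4
  have h16 : 16 * q ^ 3 < 16 * (T₁.card * T₂.card) ^ 2 := by
    calc 16 * q ^ 3 ≤ 16 * (2 * X) ^ 3 := Nat.mul_le_mul_left _ (Nat.pow_le_pow_left hq2 3)
      _ = 128 * X ^ 3 := by ring
      _ ≤ (9 * T) ^ 4 * X ^ 3 := Nat.mul_le_mul_right _ hT9
      _ < 𝒱.card ^ 4 := hnum4
      _ = (𝒱.card * 𝒱.card) ^ 2 := by ring
      _ ≤ ((2 * T₁.card) * (2 * T₂.card)) ^ 2 :=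
          Nat.pow_le_pow_left (Nat.mul_le_mul hc₁ hc₂) 2
      _ = 16 * (T₁.card * T₂.card) ^ 2 := by ring
  omega

end Vale.Agent.P012h29
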