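import Vale.Agent.Lib.P012h29.Term
import Vale.Agent.Lib.P012.DotCover
import Mathlib.Tactic

/-!
The descent: one stage, and the base of the descent.
-/

namespace Vale.Agent.P012h29

open Finset

/-- Every `m ≤ 2 ^ μ` has `m / (2 ^ E * O)` a sum of at most `cnt` distinct unit fractions,
with the labels: power of two dividing the denominators at most `2 ^ E`, and denominators
divisible by `3` are divisible by `2 ^ (E + 1 - s)`. -/
def Claim (E O μ s cnt : ℕ) : Prop :=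
  ∀ m : ℕ, m ≤ 2 ^ μ → ∃ F : Finset ℕ, F.card ≤ cnt ∧
    (∀ d ∈ F, 0 < d ∧ ¬ 2 ^ (E + 1) ∣ d ∧ (¬ 3 ∣ d ∨ 2 ^ (E + 1 - s) ∣ d)) ∧
    ∑ d ∈ F, (1 : ℚ) / d = (m : ℚ) / ((2 ^ E * O : ℕ) : ℚ)

/-- Data of a level: a prime modulus and two sets of good numbers below it. -/
def Level (w₁ w₂ n q : ℕ) : Prop :=
  q.Prime ∧ 2 ^ n < q ∧ ∃ T₁ T₂ : Finset ℕ,
    (∀ t ∈ T₁, t ≤ 2 ^ n ∧ Good w₁ t) ∧ (∀ t ∈ T₂, t ≤ 2 ^ n ∧ Good w₂ t) ∧
    q ^ 3 < (T₁.card * T₂.card) ^ 2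

theorem Good.pos {w t : ℕ} (h : Good w t) : 0 < t := by
  obtain ⟨x, y, z, _, _, _, x1, _, _, _, _, _, g, hg⟩ := h
  rcases Nat.eq_zero_or_pos t with h | h
  · subst h; omega
  · exact h

theorem cast_inj {q c t t' : ℕ} (hc : Nat.Coprime q c) (ht : t < q) (ht' : t' < q)
    (h : ((c * t : ℕ) : ZMod q) = ((c * t' : ℕ) : ZMod q)) : t = t' := by
  rw [ZMod.natCast_eq_natCast_iff] at h
  have h2 : t ≡ t' [MOD q] := Nat.ModEq.cancel_left_of_coprime (by rwa [Nat.coprime_iff_gcd_eq_one] at hc) h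
  exact Nat.ModEq.eq_of_lt_of_lt h2 ht ht'

/-- The residue class of `m` is a dot product. -/
theorem stage_residue {q n s m : ℕ} (hq : q.Prime) (hq2 : q ≠ 2) (hn : 2 ^ n < q)
    (hqm : ¬ q ∣ m) (T₁ T₂ : Finset ℕ)
    (h₁ : ∀ t ∈ T₁, t ≤ 2 ^ n) (h₂ : ∀ t ∈ T₂, 0 < t ∧ t ≤ 2 ^ n)
    (hcard : q ^ 3 < (T₁.card * T₂.card) ^ 2) :
    ∃ t₁ ∈ T₁, ∃ t₁' ∈ T₁, ∃ t₂ ∈ T₂, ∃ t₂' ∈ T₂,
      2 ^ s * (t₁ * t₂) + 2 ^ (s + 1) * (t₁' * t₂') ≡ m [MOD q] := by
  classical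
  have : Fact q.Prime := ⟨hq⟩
  have hcop : ∀ k, Nat.Coprime q (2 ^ k) := fun k =>
    Nat.Coprime.pow_right k ((Nat.coprime_primes hq Nat.prime_two).mpr hq2)
  set 𝒜 := (T₁ ×ˢ T₁).image (fun p : ℕ × ℕ =>
    (((2 ^ s * p.1 : ℕ) : ZMod q), ((2 ^ (s + 1) * p.2 : ℕ) : ZMod q))) with h𝒜
  set ℬ := (T₂ ×ˢ T₂).image (fun p : ℕ × ℕ => (((p.1 : ℕ) : ZMod q), ((p.2 : ℕ) : ZMod q))) with hℬ
  have hlt₁ : ∀ t ∈ T₁, t < q := fun t ht => lt_of_le_of_lt (h₁ t ht) hn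
  have hlt₂ : ∀ t ∈ T₂, t < q := fun t ht => lt_of_le_of_lt (h₂ t ht).2 hn
  have hcard𝒜 : 𝒜.card = T₁.card ^ 2 := by
    rw [h𝒜, card_image_of_injOn, card_product, sq]
    rintro ⟨a, b⟩ hab ⟨c, d⟩ hcd h
    simp only [coe_product, Set.mem_prod, mem_coe] at hab hcd
    simp only [Prod.mk.injEq] at h
    have e1 := cast_inj (hcop s) (hlt₁ a hab.1) (hlt₁ c hcd.1) h.1
    have e2 := cast_inj (hcop (s + 1)) (hlt₁ b hab.2) (hlt₁ d hcd.2) h.2
    rw [e1, e2]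
  have hcardℬ : ℬ.card = T₂.card ^ 2 := by
    rw [hℬ, card_image_of_injOn, card_product, sq]
    rintro ⟨a, b⟩ hab ⟨c, d⟩ hcd h
    simp only [coe_product, Set.mem_prod, mem_coe] at hab hcd
    simp only [Prod.mk.injEq] at h
    have e1 := cast_inj (c := 1) (Nat.coprime_one_right q) (hlt₂ a hab.1) (hlt₂ c hcd.1)
      (by simpa using h.1)
    have e2 := cast_inj (c := 1) (Nat.coprime_one_right q) (hlt₂ b hab.2) (hlt₂ d hcd.2)
      (by simpa using h.2)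
    rw [e1, e2]
  have hm0 : (m : ZMod q) ≠ 0 := by
    rw [Ne, ZMod.natCast_eq_zero_iff]
    exact hqm
  have hb : ∀ b ∈ ℬ, b.1 ≠ 0 := by
    intro b hb
    obtain ⟨⟨a, c⟩, hac, rfl⟩ := mem_image.mp hb
    simp only
    rw [Ne, ZMod.natCast_eq_zero_iff]
    obtain ⟨ha, _⟩ := mem_product.mp hac
    exact fun hd => absurd (Nat.le_of_dvd (h₂ a ha).1 hd) (not_le.mpr (hlt₂ a ha))
  have hc : q ^ 3 < 𝒜.card * ℬ.card := by
    rw [hcard𝒜, hcardℬ, ← mul_pow]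
    exact hcard
  obtain ⟨a, ha, b, hb', hab⟩ := Vale.Agent.P012.dot_cover 𝒜 ℬ hb (m : ZMod q) hm0 hc
  obtain ⟨⟨t₁, t₁'⟩, ht₁, rfl⟩ := mem_image.mp ha
  obtain ⟨⟨t₂, t₂'⟩, ht₂, rfl⟩ := mem_image.mp hb'
  obtain ⟨h1, h2⟩ := mem_product.mp ht₁
  obtain ⟨h3, h4⟩ := mem_product.mp ht₂
  refine ⟨t₁, h1, t₁', h2, t₂, h3, t₂', h4, ?_⟩
  rw [← ZMod.natCast_eq_natCast_iff, ← hab]
  push_cast
  ring

/-- Scaling denominators by a factor. -/
theorem sum_scale (F : Finset ℕ) (k : ℕ) (hk : 0 < k) :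
    ∑ d ∈ F.image (fun d => k * d), (1 : ℚ) / d = (∑ d ∈ F, (1 : ℚ) / d) / k := by
  rw [sum_image (fun a _ b _ h => Nat.eq_of_mul_eq_mul_left hk h), sum_div]
  apply sum_congr rfl
  intro d _
  have hk0 : (k : ℚ) ≠ 0 := by positivity
  by_cases hd : (d : ℚ) = 0
  · simp [hd]
  · push_cast
    field_simp

/-- One stage of the descent. -/
theorem stage_step {w₁ w₂ n q E O' μ' μ s cnt : ℕ} (hw₁ : Odd w₁) (hw₂ : Odd w₂) (h3₁ : ¬ 3 ∣ w₁)
    (h3₂ : ¬ 3 ∣ w₂) (hcop : Nat.Coprime w₁ w₂) (hO' : Odd O') (h3O' : 3 ∣ O')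
    (hwO' : w₁ * w₂ ∣ O') (hL : Level w₁ w₂ n q) (hn : 2 ≤ n) (hμ : μ ≤ μ' + n)
    (hμ' : 2 * n + s + 3 ≤ μ') (hs : s + 1 ≤ E) (hC : Claim E O' μ' s cnt) :
    Claim E (q * O') μ (s + 2) (cnt + 18) := by
  classical
  obtain ⟨hq, hnq, T₁, T₂, hT₁, hT₂, hcard⟩ := hL
  obtain ⟨f, rfl⟩ : ∃ f, E = s + 1 + f := ⟨E - (s + 1), by omega⟩
  have h4 : 4 ≤ 2 ^ n := by
    calc 4 = 2 ^ 2 := by norm_num
      _ ≤ 2 ^ n := Nat.pow_le_pow_right (by norm_num) hn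
  have hq2 : q ≠ 2 := by omega
  have hq3 : q ≠ 3 := by omega
  have hqodd : Odd q := hq.odd_of_ne_two hq2
  have hqpos : 0 < q := hq.pos
  have h3q : ¬ 3 ∣ q := fun h => hq3 ((Nat.prime_dvd_prime_iff_eq Nat.prime_three hq).mp h).symm
  have e1 : s + 1 + f + 1 - s = f + 2 := by omega
  have e2 : s + 1 + f + 1 - (s + 2) = f := by omega
  have hbig : ∀ m' , m' * q ≤ 2 ^ μ → m' ≤ 2 ^ μ' := by
    intro m' h
    have h1 : m' * 2 ^ n ≤ m' * q := Nat.mul_le_mul_left _ hnq.le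
    have h2 : (2:ℕ) ^ μ ≤ 2 ^ μ' * 2 ^ n := by
      rw [← pow_add]; exact Nat.pow_le_pow_right (by norm_num) hμ
    exact Nat.le_of_mul_le_mul_right (h1.trans (h.trans h2)) (by positivity)
  have hupgrade : ∀ d : ℕ, (¬ 3 ∣ d ∨ 2 ^ (f + 2) ∣ d) → (¬ 3 ∣ d ∨ 2 ^ f ∣ d) := by
    rintro d (h | h)
    · exact Or.inl h
    · exact Or.inr ((pow_dvd_pow 2 (by omega)).trans h)
  intro m hm
  unfold Claim at hC
  rw [e1] at hC
  by_cases hsmall : m ≤ 2 ^ μ'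
  · -- scale
    obtain ⟨F, hFcard, hF, hFsum⟩ := hC m hsmall
    refine ⟨F.image (fun d => q * d), card_image_le.trans (by omega), ?_, ?_⟩
    · intro d' hd'
      obtain ⟨d, hd, rfl⟩ := mem_image.mp hd'
      obtain ⟨h1, h2, h3⟩ := hF d hd
      refine ⟨Nat.mul_pos hqpos h1, ?_, ?_⟩
      · intro h
        exact h2 (Nat.Coprime.dvd_of_dvd_mul_left
          (Nat.Coprime.pow_left _ ((Nat.coprime_primes Nat.prime_two hq).mpr (Ne.symm hq2))) h)
      · rw [e2]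
        rcases hupgrade d h3 with h | h
        · left
          intro h5
          rcases (Nat.Prime.dvd_mul Nat.prime_three).mp h5 with h5 | h5
          · exact h3q h5
          · exact h h5
        · right
          exact Dvd.dvd.mul_left h _
    · rw [sum_scale F q hqpos, hFsum]
      have hq0 : (q : ℚ) ≠ 0 := by positivity
      have hO0 : (O' : ℚ) ≠ 0 := by have := hO'.pos; positivity
      push_cast
      field_simp
  push Not at hsmall
  by_cases hqm : q ∣ m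
  · -- division
    obtain ⟨m', rfl⟩ := hqm
    have hm' : m' ≤ 2 ^ μ' := hbig m' (by rwa [mul_comm])
    obtain ⟨F, hFcard, hF, hFsum⟩ := hC m' hm'
    refine ⟨F, by omega, ?_, ?_⟩
    · intro d hd
      obtain ⟨h1, h2, h3⟩ := hF d hd
      exact ⟨h1, h2, by rw [e2]; exact hupgrade d h3⟩
    · rw [hFsum]
      have hq0 : (q : ℚ) ≠ 0 := by positivity
      have hO0 : (O' : ℚ) ≠ 0 := by have := hO'.pos; positivity
      push_cast
      field_simp
  · -- the stage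
    obtain ⟨t₁, ht₁, t₁', ht₁', t₂, ht₂, t₂', ht₂', hmod⟩ := stage_residue (s := s) (m := m) hq hq2 hnq hqm
      T₁ T₂ (fun t ht => (hT₁ t ht).1) (fun t ht => ⟨(hT₂ t ht).2.pos, (hT₂ t ht).1⟩) hcard
    set P := 2 ^ s * (t₁ * t₂) + 2 ^ (s + 1) * (t₁' * t₂') with hP
    have hPle : P ≤ 2 ^ μ' := by
      have a1 := (hT₁ t₁ ht₁).1
      have a2 := (hT₁ t₁' ht₁').1
      have a3 := (hT₂ t₂ ht₂).1
      have a4 := (hT₂ t₂' ht₂').1
      have b1 : t₁ * t₂ ≤ 2 ^ n * 2 ^ n := Nat.mul_le_mul a1 a3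
      have b2 : t₁' * t₂' ≤ 2 ^ n * 2 ^ n := Nat.mul_le_mul a2 a4
      calc P ≤ 2 ^ s * (2 ^ n * 2 ^ n) + 2 ^ (s + 1) * (2 ^ n * 2 ^ n) :=
            Nat.add_le_add (Nat.mul_le_mul_left _ b1) (Nat.mul_le_mul_left _ b2)
        _ = 3 * 2 ^ (2 * n + s) := by rw [pow_succ, two_mul, pow_add, pow_add]; ring
        _ ≤ 2 ^ 3 * 2 ^ (2 * n + s) := Nat.mul_le_mul_right _ (by norm_num)
        _ = 2 ^ (2 * n + s + 3) := by rw [pow_add _ (2 * n + s) 3]; ring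
        _ ≤ 2 ^ μ' := Nat.pow_le_pow_right (by norm_num) hμ'
    have hPm : P ≤ m := by omega
    obtain ⟨m', hm'⟩ : q ∣ m - P := (Nat.modEq_iff_dvd' hPm).mp hmod
    have hme : m = P + q * m' := by omega
    have hm'le : m' ≤ 2 ^ μ' := hbig m' (by
      have : m' * q ≤ m := by rw [hme, mul_comm]; omega
      omega)
    obtain ⟨F, hFcard, hF, hFsum⟩ := hC m' hm'le
    have hOO : Odd (q * O') := hqodd.mul hO'
    have h3OO : 3 ∣ q * O' := Dvd.dvd.mul_left h3O' _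
    have hwOO : w₁ * w₂ ∣ q * O' := Dvd.dvd.mul_left hwO' _
    obtain ⟨F₁, hF₁card, hF₁, hF₁sum⟩ := term_lemma (f + 1) (q * O') hw₁ hw₂ h3₁ h3₂ hcop hOO h3OO hwOO
      (hT₁ t₁ ht₁).2 (hT₂ t₂ ht₂).2
    obtain ⟨F₂, hF₂card, hF₂, hF₂sum⟩ := term_lemma f (q * O') hw₁ hw₂ h3₁ h3₂ hcop hOO h3OO hwOO
      (hT₁ t₁' ht₁').2 (hT₂ t₂' ht₂').2
    have hdisj1 : Disjoint F₁ F₂ := by
      rw [disjoint_left]
      intro d h1 h2
      exact (hF₂ d h2).2.2.2 (hF₁ d h1).2.2.1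
    have hdisj2 : Disjoint (F₁ ∪ F₂) F := by
      rw [disjoint_left]
      intro d h1 h2
      obtain ⟨h3, h4, h5⟩ := hF d h2
      rcases mem_union.mp h1 with h1 | h1
      · obtain ⟨_, a2, _, a4⟩ := hF₁ d h1
        rcases h5 with h5 | h5
        · exact h5 a2
        · exact a4 h5
      · obtain ⟨_, a2, _, a4⟩ := hF₂ d h1
        rcases h5 with h5 | h5
        · exact h5 a2
        · exact a4 ((pow_dvd_pow 2 (by omega)).trans h5)
    refine ⟨(F₁ ∪ F₂) ∪ F, ?_, ?_, ?_⟩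
    · have := card_union_le (F₁ ∪ F₂) F
      have := card_union_le F₁ F₂
      omega
    · intro d hd
      rw [e2]
      rcases mem_union.mp hd with hd | hd
      · rcases mem_union.mp hd with hd | hd
        · obtain ⟨a1, _, a3, a4⟩ := hF₁ d hd
          refine ⟨a1, fun h => a4 ((pow_dvd_pow 2 (by omega)).trans h), Or.inr ?_⟩
          exact (pow_dvd_pow 2 (by omega)).trans a3
        · obtain ⟨a1, _, a3, a4⟩ := hF₂ d hd
          refine ⟨a1, fun h => a4 ((pow_dvd_pow 2 (by omega)).trans h), Or.inr a3⟩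
      · obtain ⟨h1, h2, h3⟩ := hF d hd
        exact ⟨h1, h2, hupgrade d h3⟩
    · rw [sum_union hdisj2, sum_union hdisj1, hF₁sum, hF₂sum, hFsum, hme, hP]
      have hq0 : (q : ℚ) ≠ 0 := by positivity
      have hO0 : (O' : ℚ) ≠ 0 := by have := hO'.pos; positivity
      push_cast
      field_simp
      ring

/-- Binary digits. -/
theorem exists_bits (μ : ℕ) : ∀ c : ℕ, c < 2 ^ μ →
    ∃ I : Finset ℕ, I ⊆ range μ ∧ ∑ i ∈ I, 2 ^ i = c := by
  induction μ with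
  | zero =>
    intro c hc
    have : c = 0 := by simpa using hc
    exact ⟨∅, by simp, by simp [this]⟩
  | succ μ ih =>
    intro c hc
    by_cases h : c < 2 ^ μ
    · obtain ⟨I, hI, hs⟩ := ih c h
      exact ⟨I, hI.trans (range_subset_range.mpr (by omega)), hs⟩
    · push Not at h
      have h2 : c - 2 ^ μ < 2 ^ μ := by
        rw [pow_succ] at hc
        omega
      obtain ⟨I, hI, hs⟩ := ih _ h2
      have hnot : μ ∉ I := fun hm => by simpa using hI hm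
      refine ⟨insert μ I, ?_, ?_⟩
      · intro i hi
        rcases mem_insert.mp hi with rfl | hi
        · simp
        · have := mem_range.mp (hI hi)
          exact mem_range.mpr (by omega)
      · rw [sum_insert hnot, hs]
        omega

/-- The base of the descent. -/
theorem base_claim {W E μ : ℕ} (hW : Odd W) (h3W : ¬ 3 ∣ W) (hE : μ + 1 ≤ E) :
    Claim E (3 * W) μ 2 (μ + 3) := by
  classical
  intro m hm
  have hWpos : 0 < W := hW.pos
  have hdiv := Nat.div_add_mod m 3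
  have hlt := Nat.mod_lt m (show 0 < 3 by norm_num)
  set c := m / 3 with hc
  set ρ := m % 3 with hρ
  have hc2 : c < 2 ^ μ := by
    have : 0 < 2 ^ μ := by positivity
    omega
  obtain ⟨I, hI, hIs⟩ := exists_bits μ c hc2
  have hIlt : ∀ i ∈ I, i < μ := fun i hi => mem_range.mp (hI hi)
  set F₀ := I.image (fun i => 2 ^ (E - i) * W) with hF₀
  have hinj : Set.InjOn (fun i => 2 ^ (E - i) * W) (I : Set ℕ) := by
    intro i hi j hj h
    have hi' := hIlt i (mem_coe.mp hi)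
    have hj' := hIlt j (mem_coe.mp hj)
    have h1 : 2 ^ (E - i) = 2 ^ (E - j) := Nat.eq_of_mul_eq_mul_right hWpos h
    have h2 := Nat.pow_right_injective (le_refl 2) h1
    omega
  have hsum₀ : ∑ d ∈ F₀, (1 : ℚ) / d = (c : ℚ) / ((2 ^ E * W : ℕ) : ℚ) := by
    rw [hF₀, sum_image hinj, ← hIs]
    push_cast
    rw [sum_div]
    apply sum_congr rfl
    intro i hi
    have hi' := hIlt i hi
    have e : (2 : ℚ) ^ E = 2 ^ i * 2 ^ (E - i) := by
      rw [← pow_add]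
      have : i + (E - i) = E := by omega
      rw [this]
    rw [e]
    have hW0 : (W : ℚ) ≠ 0 := by positivity
    field_simp
  have hF₀prop : ∀ d ∈ F₀, 0 < d ∧ ¬ 2 ^ (E + 1) ∣ d ∧ ¬ 3 ∣ d := by
    intro d hd
    obtain ⟨i, hi, rfl⟩ := mem_image.mp hd
    have hi' := hIlt i hi
    refine ⟨by positivity, ?_, ?_⟩
    · intro h
      have h2 : 2 ^ (E - i + 1) ∣ 2 ^ (E - i) * W :=
        (pow_dvd_pow 2 (by omega)).trans h
      exact not_pow_succ_dvd _ _ hW h2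
    · intro h
      rcases (Nat.Prime.dvd_mul Nat.prime_three).mp h with h | h
      · have := Nat.Prime.dvd_of_dvd_pow Nat.prime_three h
        omega
      · exact h3W h
  have hcard₀ : F₀.card ≤ μ := by
    calc F₀.card ≤ I.card := card_image_le
      _ ≤ (range μ).card := card_le_card hI
      _ = μ := card_range μ
  obtain ⟨E', rfl⟩ : ∃ E', E = E' + 1 := ⟨E - 1, by omega⟩
  have e2 : E' + 1 + 1 - 2 = E' := by omega
  have hW3 : Odd (3 * W) := (by decide : Odd 3).mul hW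
  -- the residue term
  obtain ⟨R, hRcard, hRprop, hRsum⟩ : ∃ R : Finset ℕ, R.card ≤ 1 ∧
      (∀ d ∈ R, 0 < d ∧ ¬ 2 ^ (E' + 1 + 1) ∣ d ∧ 3 ∣ d ∧ 2 ^ E' ∣ d) ∧
      ∑ d ∈ R, (1 : ℚ) / d = (ρ : ℚ) / ((2 ^ (E' + 1) * (3 * W) : ℕ) : ℚ) := by
    have h0 : ρ = 0 ∨ ρ = 1 ∨ ρ = 2 := by omega
    rcases h0 with h0 | h0 | h0
    · exact ⟨∅, by simp, by simp, by simp [h0]⟩
    · refine ⟨{2 ^ (E' + 1) * (3 * W)}, by simp, ?_, ?_⟩
      · intro d hd
        rw [mem_singleton] at hd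
        subst hd
        refine ⟨by positivity, not_pow_succ_dvd _ _ hW3, Dvd.dvd.mul_left (dvd_mul_right 3 W) _, ?_⟩
        exact Dvd.dvd.mul_right (pow_dvd_pow 2 (by omega)) _
      · rw [sum_singleton, h0]
        simp
    · refine ⟨{2 ^ E' * (3 * W)}, by simp, ?_, ?_⟩
      · intro d hd
        rw [mem_singleton] at hd
        subst hd
        refine ⟨by positivity, ?_, Dvd.dvd.mul_left (dvd_mul_right 3 W) _, dvd_mul_right _ _⟩
        intro h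
        exact not_pow_succ_dvd _ _ hW3 ((pow_dvd_pow 2 (by omega)).trans h)
      · rw [sum_singleton, h0]
        have hW0 : (W : ℚ) ≠ 0 := by positivity
        push_cast
        rw [pow_succ]
        field_simp
  have hdisj : Disjoint F₀ R := by
    rw [disjoint_left]
    intro d h1 h2
    exact (hF₀prop d h1).2.2 (hRprop d h2).2.2.1
  refine ⟨F₀ ∪ R, ?_, ?_, ?_⟩
  · have := card_union_le F₀ R
    omega
  · intro d hd
    rw [e2]
    rcases mem_union.mp hd with hd | hd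
    · obtain ⟨a, b, c'⟩ := hF₀prop d hd
      exact ⟨a, b, Or.inl c'⟩
    · obtain ⟨a, b, _, c'⟩ := hRprop d hd
      exact ⟨a, b, Or.inr c'⟩
  · rw [sum_union hdisj, hsum₀, hRsum]
    have hmq : (m : ℚ) = 3 * c + ρ := by
      have : m = 3 * c + ρ := hdiv.symm
      exact_mod_cast this
    rw [hmq]
    have hW0 : (W : ℚ) ≠ 0 := by positivity
    push_cast
    field_simp

end Vale.Agent.P012h29
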