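import Vale.Agent.Lib.P012.Egyptian
import Mathlib.Tactic

/-!
Arbitrary (good) numerators: the product term.
-/

namespace Vale.Agent.P012h29

open Finset

/-- `t` divides `x + y + z` for three pairwise coprime divisors `> 1` of `w`. -/
def Good (w t : ℕ) : Prop :=
  ∃ x y z : ℕ, x ∣ w ∧ y ∣ w ∧ z ∣ w ∧ 1 < x ∧ 1 < y ∧ 1 < z ∧
    Nat.Coprime x y ∧ Nat.Coprime x z ∧ Nat.Coprime y z ∧ t ∣ x + y + z

theorem ne_of_coprime {x y : ℕ} (hx : 1 < x) (h : Nat.Coprime x y) : x ≠ y := by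
  rintro rfl
  have : x = 1 := by simpa using h
  omega

theorem sum_triple {x y z : ℕ} (hxy : x ≠ y) (hxz : x ≠ z) (hyz : y ≠ z) :
    ∑ d ∈ ({x, y, z} : Finset ℕ), d = x + y + z := by
  rw [sum_insert (by simp [hxy, hxz]), sum_insert (by simp [hyz]), sum_singleton]
  ring

theorem not_pow_succ_dvd (f c : ℕ) (hc : Odd c) : ¬ 2 ^ (f + 1) ∣ 2 ^ f * c := by
  intro h
  rw [pow_succ] at h
  have h2 : 2 ∣ c := Nat.dvd_of_mul_dvd_mul_left (pow_pos (by norm_num) f) h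
  rcases hc with ⟨k, rfl⟩
  omega

/-- Members of a triple divide `w`. -/
theorem triple_dvd {x y z w d : ℕ} (hx : x ∣ w) (hy : y ∣ w) (hz : z ∣ w)
    (hd : d ∈ ({x, y, z} : Finset ℕ)) : d ∣ w := by
  simp only [mem_insert, mem_singleton] at hd
  rcases hd with rfl | rfl | rfl <;> assumption

theorem odd_cofactor {x y z t g w : ℕ} (hw : Odd w) (hx : x ∣ w) (hy : y ∣ w) (hz : z ∣ w)
    (hg : x + y + z = t * g) : Odd g := by
  have a : Odd x := Odd.of_dvd_nat hw hx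
  have b : Odd y := Odd.of_dvd_nat hw hy
  have c : Odd z := Odd.of_dvd_nat hw hz
  have h1 : Odd (x + y + z) := (a.add_odd b).add_odd c
  rw [hg] at h1
  exact (Nat.odd_mul.mp h1).2

/-- The denominators of the product term. -/
theorem term_lemma {w₁ w₂ t t' : ℕ} (f O : ℕ) (hw₁ : Odd w₁) (hw₂ : Odd w₂) (h3₁ : ¬ 3 ∣ w₁)
    (h3₂ : ¬ 3 ∣ w₂) (hcop : Nat.Coprime w₁ w₂) (hO : Odd O) (h3O : 3 ∣ O) (hwO : w₁ * w₂ ∣ O)
    (ht : Good w₁ t) (ht' : Good w₂ t') :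
    ∃ F : Finset ℕ, F.card ≤ 9 ∧ (∀ d ∈ F, 0 < d ∧ 3 ∣ d ∧ 2 ^ f ∣ d ∧ ¬ 2 ^ (f + 1) ∣ d) ∧
      ∑ d ∈ F, (1 : ℚ) / d = ((t * t' : ℕ) : ℚ) / ((2 ^ f * O : ℕ) : ℚ) := by
  classical
  obtain ⟨x, y, z, hx, hy, hz, x1, y1, z1, cxy, cxz, cyz, g, hg⟩ := ht
  obtain ⟨x', y', z', hx', hy', hz', x1', y1', z1', cxy', cxz', cyz', g', hg'⟩ := ht'
  have hOpos : 0 < O := hO.pos
  have hgodd : Odd g := odd_cofactor hw₁ hx hy hz hg
  have hgodd' : Odd g' := odd_cofactor hw₂ hx' hy' hz' hg'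
  have hgpos : 0 < g := hgodd.pos
  have hgpos' : 0 < g' := hgodd'.pos
  have htpos : 0 < t := by
    rcases Nat.eq_zero_or_pos t with h | h
    · subst h; omega
    · exact h
  have htpos' : 0 < t' := by
    rcases Nat.eq_zero_or_pos t' with h | h
    · subst h; omega
    · exact h
  set Ξ : Finset ℕ := {x, y, z} with hΞ
  set Ξ' : Finset ℕ := {x', y', z'} with hΞ'
  have hsum : ∑ d ∈ Ξ, d = x + y + z :=
    sum_triple (ne_of_coprime x1 cxy) (ne_of_coprime x1 cxz) (ne_of_coprime y1 cyz)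
  have hsum' : ∑ d ∈ Ξ', d = x' + y' + z' :=
    sum_triple (ne_of_coprime x1' cxy') (ne_of_coprime x1' cxz') (ne_of_coprime y1' cyz')
  have hΞdvd : ∀ d ∈ Ξ, d ∣ w₁ := fun d hd => triple_dvd hx hy hz hd
  have hΞdvd' : ∀ d ∈ Ξ', d ∣ w₂ := fun d hd => triple_dvd hx' hy' hz' hd
  have hΞcard : Ξ.card ≤ 3 := card_le_three
  have hΞcard' : Ξ'.card ≤ 3 := card_le_three
  -- injectivity of the products
  have hinj : Set.InjOn (fun p : ℕ × ℕ => p.1 * p.2) ((Ξ ×ˢ Ξ' : Finset (ℕ × ℕ)) : Set (ℕ × ℕ)) := by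
    rintro ⟨a, b⟩ hab ⟨c, d⟩ hcd h
    simp only [coe_product, Set.mem_prod, mem_coe] at hab hcd
    simp only at h
    have ca : a ∣ w₁ := hΞdvd a hab.1
    have cc : c ∣ w₁ := hΞdvd c hcd.1
    have cb : b ∣ w₂ := hΞdvd' b hab.2
    have cd : d ∣ w₂ := hΞdvd' d hcd.2
    have cop1 : Nat.Coprime a d := Nat.Coprime.coprime_dvd_left ca (Nat.Coprime.coprime_dvd_right cd hcop)
    have cop2 : Nat.Coprime c b := Nat.Coprime.coprime_dvd_left cc (Nat.Coprime.coprime_dvd_right cb hcop)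
    have e1 : a ∣ c := cop1.dvd_of_dvd_mul_right (h ▸ dvd_mul_right a b)
    have e2 : c ∣ a := cop2.dvd_of_dvd_mul_right (h ▸ dvd_mul_right c d)
    have e3 : a = c := Nat.dvd_antisymm e1 e2
    subst e3
    have hapos : 0 < a := Nat.pos_of_dvd_of_pos ca hw₁.pos
    have e4 : b = d := Nat.eq_of_mul_eq_mul_left hapos h
    subst e4
    rfl
  set D := (Ξ ×ˢ Ξ').image (fun p : ℕ × ℕ => p.1 * p.2) with hD
  set A := g * g' * (2 ^ f * O) with hA
  have hApos : 0 < A := by positivity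
  have hprod_dvd : ∀ a ∈ Ξ, ∀ b ∈ Ξ', a * b ∣ O := fun a ha b hb =>
    (Nat.mul_dvd_mul (hΞdvd a ha) (hΞdvd' b hb)).trans hwO
  have hDdvd : ∀ d ∈ D, d ∣ A := by
    intro d hd
    obtain ⟨⟨a, b⟩, hab, rfl⟩ := mem_image.mp hd
    obtain ⟨ha, hb⟩ := mem_product.mp hab
    exact (hprod_dvd a ha b hb).trans ⟨g * g' * 2 ^ f, by rw [hA]; ring⟩
  have hsumD : ∑ d ∈ D, d = (x + y + z) * (x' + y' + z') := by
    rw [hD, sum_image hinj, sum_product]
    simp only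
    rw [← hsum, ← hsum', sum_mul_sum]
  have hmain := Vale.Agent.P012.sum_unit_of_dvd A hApos D hDdvd
  refine ⟨D.image (fun d => A / d), ?_, ?_, ?_⟩
  · calc (D.image (fun d => A / d)).card ≤ D.card := card_image_le
      _ ≤ (Ξ ×ˢ Ξ').card := card_image_le
      _ = Ξ.card * Ξ'.card := card_product _ _
      _ ≤ 3 * 3 := Nat.mul_le_mul hΞcard hΞcard'
      _ = 9 := by norm_num
  · intro d' hd'
    obtain ⟨d, hd, rfl⟩ := mem_image.mp hd'
    obtain ⟨⟨a, b⟩, hab, rfl⟩ := mem_image.mp hd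
    obtain ⟨ha, hb⟩ := mem_product.mp hab
    simp only
    obtain ⟨O₁, hO₁⟩ := hprod_dvd a ha b hb
    have hapos : 0 < a := Nat.pos_of_dvd_of_pos (hΞdvd a ha) hw₁.pos
    have hbpos : 0 < b := Nat.pos_of_dvd_of_pos (hΞdvd' b hb) hw₂.pos
    have hO₁odd : Odd O₁ := by
      have : Odd (a * b * O₁) := hO₁ ▸ hO
      exact (Nat.odd_mul.mp this).2
    have h3ab : ¬ 3 ∣ a * b := by
      intro h
      rcases (Nat.Prime.dvd_mul Nat.prime_three).mp h with h | h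
      · exact h3₁ (h.trans (hΞdvd a ha))
      · exact h3₂ (h.trans (hΞdvd' b hb))
    have h3O₁ : 3 ∣ O₁ := by
      have : 3 ∣ a * b * O₁ := hO₁ ▸ h3O
      exact ((Nat.Prime.dvd_mul Nat.prime_three).mp this).resolve_left h3ab
    have hAe : A = (a * b) * (2 ^ f * (g * g' * O₁)) := by
      rw [hA, hO₁]; ring
    have hdiv : A / (a * b) = 2 ^ f * (g * g' * O₁) := by
      rw [hAe]
      exact Nat.mul_div_cancel_left _ (Nat.mul_pos hapos hbpos)
    rw [hdiv]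
    have hodd : Odd (g * g' * O₁) := (hgodd.mul hgodd').mul hO₁odd
    refine ⟨by have := hodd.pos; positivity, ?_, dvd_mul_right _ _, not_pow_succ_dvd f _ hodd⟩
    exact Dvd.dvd.mul_left (Dvd.dvd.mul_left h3O₁ _) _
  · rw [hmain, hsumD, hg, hg', hA]
    have hg0 : (g : ℚ) ≠ 0 := by positivity
    have hg0' : (g' : ℚ) ≠ 0 := by positivity
    have hO0 : (O : ℚ) ≠ 0 := by positivity
    push_cast
    field_simp

end Vale.Agent.P012h29
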